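import Vale.Agent.H14.CT.BoxDefs

/-!
P328, Lemma (C), counting in box-slice classes: the rank numbers `card (Box n t m)` of a
product of chains grow at most like binomial coefficients, and they are symmetric.

Proof sketch.
(B1) Count pairs: `(m + 1) * card (Box n t (m + 1)) = ∑ z, ∑ c, z c = ∑ c, ∑ z, z c`; for a
fixed column `c`, removing one unit at `c` is a bijection from `{z ∈ Box n t (m + 1) | 1 ≤ z c}`
onto `{w ∈ Box n t m | w c < t c}` with `z c = w c + 1`, so
`∑ z, z c = ∑ w with w c < t c, (w c + 1)`; finally for every `w`,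
`∑ c with w c < t c, (w c + 1) ≤ ∑ c, w c + card {c | 0 < t c} = m + K`.
(B2) `z ↦ t - z` is a bijection from `Box n t m` onto `Box n t (∑ t - m)`.
-/

namespace Vale.Agent.H44.CT

open Finset Vale.Agent.H14.CT

variable {n : ℕ}

/-- the sum of a vector with one entry replaced -/
lemma r2_sum_update (z : Fin n → ℕ) (c : Fin n) (v : ℕ) :
    (∑ k, Function.update z c v k) + z c = (∑ k, z k) + v := by
  rw [Finset.sum_update_of_mem (mem_univ c), ← Finset.add_sum_erase univ z (mem_univ c),
    Finset.sdiff_singleton_eq_erase]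
  ring

/-- removing one unit at the column `c` -/
lemma r2_down_mem (t : Fin n → ℕ) (m : ℕ) (c : Fin n) (z : Box n t (m + 1))
    (hz : 1 ≤ z.1 c) :
    (∀ k, Function.update z.1 c (z.1 c - 1) k ≤ t k) ∧
      ∑ k, Function.update z.1 c (z.1 c - 1) k = m := by
  constructor
  · intro k
    by_cases hk : k = c
    · subst hk
      rw [Function.update_self]
      exact (Nat.sub_le _ _).trans (z.2.1 k)
    · rw [Function.update_of_ne hk]
      exact z.2.1 k
  · have h1 := r2_sum_update z.1 c (z.1 c - 1)
    have h2 := z.2.2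
    omega

/-- adding one unit at the column `c` -/
lemma r2_up_mem (t : Fin n → ℕ) (m : ℕ) (c : Fin n) (w : Box n t m) (hw : w.1 c < t c) :
    (∀ k, Function.update w.1 c (w.1 c + 1) k ≤ t k) ∧
      ∑ k, Function.update w.1 c (w.1 c + 1) k = m + 1 := by
  constructor
  · intro k
    by_cases hk : k = c
    · subst hk
      rw [Function.update_self]
      exact hw
    · rw [Function.update_of_ne hk]
      exact w.2.1 k
  · have h1 := r2_sum_update w.1 c (w.1 c + 1)
    have h2 := w.2.2
    omega

/-- the column sum over the class of rank `m + 1`, transported to the class of rank `m` -/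
lemma r2_col_sum (t : Fin n → ℕ) (m : ℕ) (c : Fin n) :
    ∑ z : Box n t (m + 1), z.1 c
      = ∑ w : Box n t m, (if w.1 c < t c then w.1 c + 1 else 0) := by
  refine Finset.sum_bij_ne_zero
    (fun z _ hz => (⟨Function.update z.1 c (z.1 c - 1),
      r2_down_mem t m c z (Nat.one_le_iff_ne_zero.mpr hz)⟩ : Box n t m))
    (fun _ _ _ => mem_univ _) ?_ ?_ ?_
  · intro z₁ _ h₁ z₂ _ h₂ heq
    have hv : Function.update z₁.1 c (z₁.1 c - 1) = Function.update z₂.1 c (z₂.1 c - 1) :=
      congrArg Subtype.val heq
    apply Subtype.ext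
    funext k
    have hk := congrFun hv k
    by_cases hkc : k = c
    · subst hkc
      rw [Function.update_self, Function.update_self] at hk
      have e1 := Nat.one_le_iff_ne_zero.mpr h₁
      have e2 := Nat.one_le_iff_ne_zero.mpr h₂
      omega
    · rw [Function.update_of_ne hkc, Function.update_of_ne hkc] at hk
      exact hk
  · intro w _ hw
    have hlt : w.1 c < t c := by
      by_contra hcon
      exact hw (if_neg hcon)
    refine ⟨⟨Function.update w.1 c (w.1 c + 1), r2_up_mem t m c w hlt⟩, mem_univ _, ?_, ?_⟩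
    · simp
    · apply Subtype.ext
      simp
  · intro z _ hz
    have h1 := Nat.one_le_iff_ne_zero.mpr hz
    have hlt : z.1 c - 1 < t c := lt_of_lt_of_le (by omega) (z.2.1 c)
    simp only [Function.update_self]
    rw [if_pos hlt]
    omega

/-- (B1) in natural numbers -/
lemma r2_nat (t : Fin n → ℕ) (m : ℕ) :
    (m + 1) * Fintype.card (Box n t (m + 1))
      ≤ (m + (univ.filter (fun c : Fin n => 0 < t c)).card) * Fintype.card (Box n t m) := by
  have h1 : (m + 1) * Fintype.card (Box n t (m + 1))
      = ∑ z : Box n t (m + 1), ∑ c, z.1 c := by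
    rw [Finset.sum_congr rfl (fun z _ => z.2.2), Finset.sum_const, Finset.card_univ,
      smul_eq_mul, mul_comm]
  have h2 : ∑ z : Box n t (m + 1), ∑ c, z.1 c
      = ∑ w : Box n t m, ∑ c, (if w.1 c < t c then w.1 c + 1 else 0) := by
    rw [Finset.sum_comm]
    rw [Finset.sum_congr rfl (fun c _ => r2_col_sum t m c)]
    rw [Finset.sum_comm]
  have h3 : ∀ w : Box n t m, ∑ c, (if w.1 c < t c then w.1 c + 1 else 0)
      ≤ m + (univ.filter (fun c : Fin n => 0 < t c)).card := by
    intro w
    have hle : ∑ c, (if w.1 c < t c then w.1 c + 1 else 0)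
        ≤ ∑ c, (w.1 c + (if 0 < t c then 1 else 0)) := by
      apply Finset.sum_le_sum
      intro c _
      by_cases hc : w.1 c < t c
      · rw [if_pos hc, if_pos (lt_of_le_of_lt (Nat.zero_le _) hc)]
      · rw [if_neg hc]
        exact Nat.zero_le _
    rw [Finset.sum_add_distrib, w.2.2, ← Finset.card_filter] at hle
    exact hle
  rw [h1, h2]
  calc ∑ w : Box n t m, ∑ c, (if w.1 c < t c then w.1 c + 1 else 0)
      ≤ ∑ _w : Box n t m, (m + (univ.filter (fun c : Fin n => 0 < t c)).card) :=
        Finset.sum_le_sum (fun w _ => h3 w)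
    _ = (m + (univ.filter (fun c : Fin n => 0 < t c)).card) * Fintype.card (Box n t m) := by
        rw [Finset.sum_const, Finset.card_univ, smul_eq_mul, mul_comm]

/-- (B1) `(m + 1) c(m + 1) ≤ (m + K) c(m)`, `K` the number of columns with a positive cap. -/
theorem box_card_succ_le (t : Fin n → ℕ) (m : ℕ) :
    ((m : ℝ) + 1) * (Fintype.card (Box n t (m + 1)) : ℝ)
      ≤ ((m : ℝ) + ((univ.filter (fun c : Fin n => 0 < t c)).card : ℝ))
          * (Fintype.card (Box n t m) : ℝ) := by
  have h := r2_nat t m
  exact_mod_cast h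

/-- the complement map between the classes of complementary ranks -/
def r2_compl (t : Fin n → ℕ) (m : ℕ) (z : Box n t m) : Box n t (∑ k, t k - m) :=
  ⟨fun k => t k - z.1 k, fun k => Nat.sub_le _ _, by
    rw [Finset.sum_tsub_distrib _ (fun k _ => z.2.1 k), z.2.2]⟩

/-- the complement map is an injection between the classes of complementary ranks -/
lemma r2_compl_le (t : Fin n → ℕ) (m : ℕ) :
    Fintype.card (Box n t m) ≤ Fintype.card (Box n t (∑ k, t k - m)) := by
  apply Fintype.card_le_of_injective (r2_compl t m)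
  intro z w h
  apply Subtype.ext
  funext k
  have hk : t k - z.1 k = t k - w.1 k := congrFun (congrArg Subtype.val h) k
  have h1 := z.2.1 k
  have h2 := w.2.1 k
  omega

/-- (B2) symmetry of the rank numbers. -/
theorem box_card_symm (t : Fin n → ℕ) (m : ℕ) (hm : m ≤ ∑ k, t k) :
    Fintype.card (Box n t m) = Fintype.card (Box n t (∑ k, t k - m)) := by
  apply le_antisymm (r2_compl_le t m)
  have h := r2_compl_le t (∑ k, t k - m)
  rw [Nat.sub_sub_self hm] at h
  exact h

end Vale.Agent.H44.CT
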