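import Mathlib

/-!
P328, Lemma (C), analytic core: a one-dimensional weighted Hardy inequality with a Doeblin
constant.

`p δ` is the number of lines of depth `δ`, `G δ` the sum of a centred function over the tables
of depth `δ`.  The left side is the closed-form penalty, the right side is the squared norm of
the conditional expectation given the depth.  `θ` is a Doeblin constant: every line that occurs
has at most `1/θ` times the mean number of points of a line.
-/

namespace Vale.Agent.H44.CT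

open Finset

/-- tail sums `∑_{δ = t..D} q δ` -/
noncomputable def r1_tail (D : ℕ) (q : ℕ → ℝ) (t : ℕ) : ℝ := ∑ δ ∈ Icc t D, q δ

/-- the optimal slopes `T d / (d (d+1) n_d)` -/
noncomputable def r1_al (D : ℕ) (p G : ℕ → ℝ) (d : ℕ) : ℝ :=
  r1_tail D G d / ((d : ℝ) * (d + 1) * r1_tail D p d)

/-- tail sums of the slopes, written as a difference of initial sums -/
noncomputable def r1_be (D : ℕ) (p G : ℕ → ℝ) (e : ℕ) : ℝ :=
  (∑ d ∈ range (D + 1), r1_al D p G d) - ∑ d ∈ range (e + 1), r1_al D p G d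

theorem r1_be_rec (D : ℕ) (p G : ℕ → ℝ) (e : ℕ) :
    r1_be D p G e = r1_al D p G (e + 1) + r1_be D p G (e + 1) := by
  unfold r1_be
  rw [sum_range_succ (fun d => r1_al D p G d) (e + 1)]
  ring

/-- exchange of the order of summation -/
theorem r1_exch (D : ℕ) (q X : ℕ → ℝ) :
    ∑ t ∈ range (D + 1), r1_tail D q t * X t
      = ∑ e ∈ range (D + 1), q e * ∑ t ∈ range (e + 1), X t := by
  unfold r1_tail
  simp_rw [sum_mul, mul_sum]
  apply sum_comm'
  intro t e
  simp only [mem_range, mem_Icc]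
  omega

theorem r1_tail_nonneg (D : ℕ) (p : ℕ → ℝ) (hp : ∀ δ, 0 ≤ p δ) (t : ℕ) : 0 ≤ r1_tail D p t :=
  sum_nonneg fun δ _ => hp δ

theorem r1_tail_le (D : ℕ) (p : ℕ → ℝ) (hp : ∀ δ, 0 ≤ p δ) (t : ℕ) :
    r1_tail D p t ≤ ∑ e ∈ range (D + 1), p e := by
  unfold r1_tail
  apply sum_le_sum_of_subset_of_nonneg
  · intro δ hδ
    simp only [mem_Icc] at hδ
    simp only [mem_range]
    omega
  · intro i _ _
    exact hp i

/-- the Lagrange identity with weights -/
theorem r1_lagrange (s : Finset ℕ) (w x : ℕ → ℝ) :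
    ∑ t ∈ s, ∑ t' ∈ s, w t * w t' * (x t - x t') ^ 2
      = 2 * (∑ t ∈ s, w t) * (∑ t ∈ s, w t * x t ^ 2) - 2 * (∑ t ∈ s, w t * x t) ^ 2 := by
  have h : ∀ t t', w t * w t' * (x t - x t') ^ 2
      = (w t * x t ^ 2) * w t' - 2 * ((w t * x t) * (w t' * x t'))
        + w t * (w t' * x t' ^ 2) := by
    intro t t'
    ring
  simp_rw [h, sum_add_distrib, sum_sub_distrib, ← mul_sum, ← sum_mul]
  ring

theorem r1_sq_rec (al be : ℕ → ℝ) (hrec : ∀ e, be e = al (e + 1) + be (e + 1)) (c : ℝ)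
    (e : ℕ) :
    ∑ t ∈ range (e + 1), (be t - (t : ℝ) * al t - c) ^ 2
      = ((e : ℝ) + 1) * (be e - c) ^ 2
        + ∑ d ∈ range (e + 1), (d : ℝ) * (d + 1) * al d ^ 2 := by
  induction e with
  | zero => simp
  | succ k ih =>
    rw [sum_range_succ, ih, sum_range_succ (fun d => (d : ℝ) * (d + 1) * al d ^ 2) (k + 1),
      hrec k]
    push_cast
    ring

theorem r1_lin_rec (al be : ℕ → ℝ) (hrec : ∀ e, be e = al (e + 1) + be (e + 1)) (c : ℝ)
    (e : ℕ) :
    ∑ t ∈ range (e + 1), (be t - (t : ℝ) * al t - c) = ((e : ℝ) + 1) * (be e - c) := by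
  induction e with
  | zero => simp
  | succ k ih =>
    rw [sum_range_succ, ih, hrec k]
    push_cast
    ring

/-- exchange with the maximum of two indices, and `n_t n_t' ≤ Λ n_{max t t'}` -/
theorem r1_max_exch (D : ℕ) (p : ℕ → ℝ) (hp : ∀ δ, 0 ≤ p δ) (c : ℕ → ℕ → ℝ)
    (hc : ∀ t t', 0 ≤ c t t') :
    ∑ t ∈ range (D + 1), ∑ t' ∈ range (D + 1), r1_tail D p t * r1_tail D p t' * c t t'
      ≤ (∑ e ∈ range (D + 1), p e)
        * ∑ e ∈ range (D + 1), p e * ∑ t ∈ range (e + 1), ∑ t' ∈ range (e + 1), c t t' := by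
  have h1 : ∑ e ∈ range (D + 1), p e * ∑ t ∈ range (e + 1), ∑ t' ∈ range (e + 1), c t t'
      = ∑ t ∈ range (D + 1), ∑ t' ∈ range (D + 1), r1_tail D p (max t t') * c t t' := by
    simp_rw [mul_sum]
    rw [sum_comm' (s' := fun t => Icc t D) (t' := range (D + 1))]
    · apply sum_congr rfl
      intro t _
      rw [sum_comm' (s' := fun t' => Icc (max t t') D) (t' := range (D + 1))]
      · apply sum_congr rfl
        intro t' _
        unfold r1_tail
        rw [sum_mul]
      · intro e t'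
        simp only [mem_range, mem_Icc]
        omega
    · intro e t
      simp only [mem_range, mem_Icc]
      omega
  rw [h1, mul_sum]
  apply sum_le_sum
  intro t _
  rw [mul_sum]
  apply sum_le_sum
  intro t' _
  rw [← mul_assoc]
  apply mul_le_mul_of_nonneg_right _ (hc t t')
  rcases le_total t t' with h | h
  · rw [max_eq_right h]
    exact mul_le_mul_of_nonneg_right (r1_tail_le D p hp t) (r1_tail_nonneg D p hp t')
  · rw [max_eq_left h, mul_comm]
    exact mul_le_mul_of_nonneg_right (r1_tail_le D p hp t') (r1_tail_nonneg D p hp t)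

theorem r1_term (θ F Λ pe W Q S e1 : ℝ) (hpe : 0 ≤ pe) (hW : 0 ≤ W)
    (hWeq : W = 2 * e1 * Q - 2 * S ^ 2) (he1 : 0 < e1) (hF : 0 < F)
    (hd : 0 < pe → θ * e1 * Λ ≤ F) :
    θ / (2 * F) * (Λ * (pe * W)) ≤ pe * (Q - S ^ 2 / e1) := by
  have hEq : Q - S ^ 2 / e1 = W / (2 * e1) := by
    rw [hWeq]
    field_simp
  rw [hEq]
  rcases hpe.eq_or_lt with h0 | hpos
  · rw [← h0]
    simp
  · have h1 : θ / (2 * F) * Λ ≤ 1 / (2 * e1) := by
      rw [div_mul_eq_mul_div, div_le_div_iff₀ (by positivity) (by positivity)]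
      have := hd hpos
      nlinarith
    calc θ / (2 * F) * (Λ * (pe * W)) = pe * ((θ / (2 * F) * Λ) * W) := by ring
      _ ≤ pe * ((1 / (2 * e1)) * W) := by gcongr
      _ = pe * (W / (2 * e1)) := by ring

/-- the Doeblin step: a centred function of `t` loses at least `θ` of its squared norm -/
theorem r1_doeblin (D : ℕ) (p x : ℕ → ℝ) (θ : ℝ) (hp : ∀ δ, 0 ≤ p δ) (hθ0 : 0 < θ)
    (hML : ∀ δ ∈ range (D + 1), 0 < p δ →
      θ * ((δ : ℝ) + 1) * (∑ e ∈ range (D + 1), p e)
        ≤ ∑ e ∈ range (D + 1), ((e : ℝ) + 1) * p e)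
    (hF : 0 < ∑ e ∈ range (D + 1), ((e : ℝ) + 1) * p e)
    (hx : ∑ e ∈ range (D + 1), p e * ∑ t ∈ range (e + 1), x t = 0) :
    θ * ∑ e ∈ range (D + 1), p e * ∑ t ∈ range (e + 1), x t ^ 2
      ≤ ∑ e ∈ range (D + 1), p e * ((∑ t ∈ range (e + 1), x t ^ 2)
          - (∑ t ∈ range (e + 1), x t) ^ 2 / ((e : ℝ) + 1)) := by
  have hW : ∀ e : ℕ, ∑ t ∈ range (e + 1), ∑ t' ∈ range (e + 1), (x t - x t') ^ 2
      = 2 * ((e : ℝ) + 1) * (∑ t ∈ range (e + 1), x t ^ 2)
        - 2 * (∑ t ∈ range (e + 1), x t) ^ 2 := by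
    intro e
    have h := r1_lagrange (range (e + 1)) (fun _ => 1) x
    simp only [one_mul, sum_const, card_range, nsmul_eq_mul, mul_one] at h
    rw [h]
    push_cast
    ring
  have hsumn : ∑ t ∈ range (D + 1), r1_tail D p t
      = ∑ e ∈ range (D + 1), ((e : ℝ) + 1) * p e := by
    have h := r1_exch D p (fun _ => 1)
    simp only [mul_one, sum_const, card_range, nsmul_eq_mul] at h
    rw [h]
    apply sum_congr rfl
    intro e _
    push_cast
    ring
  have hsumx : ∑ t ∈ range (D + 1), r1_tail D p t * x t = 0 := by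
    rw [r1_exch D p x, hx]
  have hsumx2 : ∑ t ∈ range (D + 1), r1_tail D p t * x t ^ 2
      = ∑ e ∈ range (D + 1), p e * ∑ t ∈ range (e + 1), x t ^ 2 :=
    r1_exch D p (fun t => x t ^ 2)
  have hmax := r1_max_exch D p hp (fun t t' => (x t - x t') ^ 2) (fun _ _ => sq_nonneg _)
  rw [r1_lagrange (range (D + 1)) (r1_tail D p) x, hsumn, hsumx, hsumx2] at hmax
  have hstep : ∑ e ∈ range (D + 1), θ / (2 * ∑ e ∈ range (D + 1), ((e : ℝ) + 1) * p e)
      * ((∑ e ∈ range (D + 1), p e)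
        * (p e * ∑ t ∈ range (e + 1), ∑ t' ∈ range (e + 1), (x t - x t') ^ 2))
      ≤ ∑ e ∈ range (D + 1), p e * ((∑ t ∈ range (e + 1), x t ^ 2)
          - (∑ t ∈ range (e + 1), x t) ^ 2 / ((e : ℝ) + 1)) := by
    apply sum_le_sum
    intro e he
    apply r1_term
    · exact hp e
    · exact sum_nonneg fun t _ => sum_nonneg fun t' _ => sq_nonneg _
    · exact hW e
    · positivity
    · exact hF
    · exact hML e he
  refine le_trans ?_ hstep
  rw [← mul_sum, ← mul_sum]
  have hθ' : θ * ∑ e ∈ range (D + 1), p e * ∑ t ∈ range (e + 1), x t ^ 2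
      = θ / (2 * ∑ e ∈ range (D + 1), ((e : ℝ) + 1) * p e)
        * (2 * (∑ e ∈ range (D + 1), ((e : ℝ) + 1) * p e)
            * (∑ e ∈ range (D + 1), p e * ∑ t ∈ range (e + 1), x t ^ 2) - 2 * 0 ^ 2) := by
    field_simp
    ring
  rw [hθ']
  apply mul_le_mul_of_nonneg_left hmax
  positivity

theorem r1_sq_div (a y : ℝ) : a ^ 2 / y = y * (a / y) ^ 2 := by
  by_cases h : y = 0
  · simp [h]
  · field_simp

theorem r1_sq_div' (a y : ℝ) : y * (a / y) ^ 2 = a * (a / y) := by
  by_cases h : y = 0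
  · simp [h]
  · field_simp

/-- One-dimensional Hardy inequality with Doeblin constant `θ`. -/
theorem hardy_doeblin (D : ℕ) (p G : ℕ → ℝ) (θ : ℝ)
    (hp : ∀ δ, 0 ≤ p δ) (hG0 : ∀ δ, p δ = 0 → G δ = 0)
    (hsum : ∑ δ ∈ range (D + 1), G δ = 0)
    (hθ0 : 0 < θ) (hθ1 : θ ≤ 1)
    (hML : ∀ δ ∈ range (D + 1), 0 < p δ →
      θ * ((δ : ℝ) + 1) * (∑ e ∈ range (D + 1), p e)
        ≤ ∑ e ∈ range (D + 1), ((e : ℝ) + 1) * p e) :
    ∑ d ∈ Icc 1 D, (∑ δ ∈ Icc d D, G δ) ^ 2 / ((d : ℝ) * (d + 1) * ∑ δ ∈ Icc d D, p δ)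
      ≤ ((1 - θ) / θ) * ∑ δ ∈ range (D + 1), G δ ^ 2 / (((δ : ℝ) + 1) * p δ) := by
  have hU0 : 0 ≤ ∑ δ ∈ range (D + 1), G δ ^ 2 / (((δ : ℝ) + 1) * p δ) :=
    sum_nonneg fun δ _ => div_nonneg (sq_nonneg _) (mul_nonneg (by positivity) (hp δ))
  have hc0 : 0 ≤ (1 - θ) / θ := div_nonneg (by linarith) hθ0.le
  have hFn : 0 ≤ ∑ e ∈ range (D + 1), ((e : ℝ) + 1) * p e :=
    sum_nonneg fun e _ => mul_nonneg (by positivity) (hp e)
  rcases hFn.eq_or_lt with hF0 | hFpos
  · have hpz : ∀ e ∈ range (D + 1), p e = 0 := by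
      intro e he
      have h := (sum_eq_zero_iff_of_nonneg
        (fun e _ => mul_nonneg (by positivity) (hp e))).mp hF0.symm e he
      have he1 : (0 : ℝ) < (e : ℝ) + 1 := by positivity
      rcases mul_eq_zero.mp h with h | h
      · linarith
      · exact h
    have hT : ∀ d, ∑ δ ∈ Icc d D, G δ = 0 := by
      intro d
      apply sum_eq_zero
      intro δ hδ
      apply hG0
      apply hpz
      simp only [mem_Icc] at hδ
      simp only [mem_range]
      omega
    have hz : ∑ d ∈ Icc 1 D,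
        (∑ δ ∈ Icc d D, G δ) ^ 2 / ((d : ℝ) * (d + 1) * ∑ δ ∈ Icc d D, p δ) = 0 := by
      apply sum_eq_zero
      intro d _
      rw [hT d]
      simp
    rw [hz]
    exact mul_nonneg hc0 hU0
  · set F := ∑ e ∈ range (D + 1), ((e : ℝ) + 1) * p e with hF
    set U := ∑ δ ∈ range (D + 1), G δ ^ 2 / (((δ : ℝ) + 1) * p δ) with hU
    set c : ℝ := (∑ e ∈ range (D + 1), ((e : ℝ) + 1) * p e * r1_be D p G e) / F with hc
    have hrec := r1_be_rec D p G
    have hR : range (D + 1) = insert 0 (Icc 1 D) := by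
      ext k
      simp only [mem_range, mem_insert, mem_Icc]
      omega
    have h0 : (0 : ℕ) ∉ Icc 1 D := by simp
    have hPen1 : ∑ d ∈ Icc 1 D,
        (∑ δ ∈ Icc d D, G δ) ^ 2 / ((d : ℝ) * (d + 1) * ∑ δ ∈ Icc d D, p δ)
        = ∑ d ∈ range (D + 1), r1_tail D p d * ((d : ℝ) * (d + 1) * r1_al D p G d ^ 2) := by
      rw [hR, sum_insert h0]
      simp only [Nat.cast_zero, zero_mul, mul_zero, zero_add]
      apply sum_congr rfl
      intro d _
      rw [r1_sq_div]
      unfold r1_al r1_tail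
      ring
    have hPen2 : ∑ d ∈ Icc 1 D,
        (∑ δ ∈ Icc d D, G δ) ^ 2 / ((d : ℝ) * (d + 1) * ∑ δ ∈ Icc d D, p δ)
        = ∑ d ∈ range (D + 1), r1_tail D G d * r1_al D p G d := by
      rw [hPen1]
      apply sum_congr rfl
      intro d _
      have h := r1_sq_div' (r1_tail D G d) ((d : ℝ) * (d + 1) * r1_tail D p d)
      unfold r1_al
      rw [← h]
      ring
    set Pen := ∑ d ∈ Icc 1 D,
        (∑ δ ∈ Icc d D, G δ) ^ 2 / ((d : ℝ) * (d + 1) * ∑ δ ∈ Icc d D, p δ) with hPen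
    set x : ℕ → ℝ := fun t => r1_be D p G t - (t : ℝ) * r1_al D p G t - c with hxdef
    have hS : ∀ e : ℕ, ∑ t ∈ range (e + 1), x t = ((e : ℝ) + 1) * (r1_be D p G e - c) :=
      fun e => r1_lin_rec (r1_al D p G) (r1_be D p G) hrec c e
    have hQ : ∀ e : ℕ, ∑ t ∈ range (e + 1), x t ^ 2
        = ((e : ℝ) + 1) * (r1_be D p G e - c) ^ 2
          + ∑ d ∈ range (e + 1), (d : ℝ) * (d + 1) * r1_al D p G d ^ 2 :=
      fun e => r1_sq_rec (r1_al D p G) (r1_be D p G) hrec c e
    have hcF : c * F = ∑ e ∈ range (D + 1), ((e : ℝ) + 1) * p e * r1_be D p G e := by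
      rw [hc]
      field_simp
    have hx0 : ∑ e ∈ range (D + 1), p e * ∑ t ∈ range (e + 1), x t = 0 := by
      have h1 : ∀ e ∈ range (D + 1), p e * ∑ t ∈ range (e + 1), x t
          = ((e : ℝ) + 1) * p e * r1_be D p G e - c * (((e : ℝ) + 1) * p e) := by
        intro e _
        rw [hS e]
        ring
      rw [sum_congr rfl h1, sum_sub_distrib, ← mul_sum, ← hF, hcF]
      ring
    have hPenV : Pen = ∑ e ∈ range (D + 1), p e * ((∑ t ∈ range (e + 1), x t ^ 2)
          - (∑ t ∈ range (e + 1), x t) ^ 2 / ((e : ℝ) + 1)) := by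
      rw [hPen1, r1_exch]
      apply sum_congr rfl
      intro e _
      rw [hS e, hQ e]
      have he1 : ((e : ℝ) + 1) ≠ 0 := by positivity
      field_simp
      ring
    have hV := r1_doeblin D p x θ hp hθ0 hML hFpos hx0
    rw [← hPenV] at hV
    set V := ∑ e ∈ range (D + 1), p e * ∑ t ∈ range (e + 1), x t ^ 2 with hVdef
    set B := ∑ e ∈ range (D + 1), ((e : ℝ) + 1) * p e * (r1_be D p G e - c) ^ 2 with hBdef
    have hV0 : 0 ≤ V :=
      sum_nonneg fun e _ => mul_nonneg (hp e) (sum_nonneg fun t _ => sq_nonneg _)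
    have hPenVB : Pen = V - B := by
      rw [hPenV, hVdef, hBdef, ← sum_sub_distrib]
      apply sum_congr rfl
      intro e _
      rw [hS e]
      have he1 : ((e : ℝ) + 1) ≠ 0 := by positivity
      field_simp
    have hPenG : Pen = - ∑ e ∈ range (D + 1), G e * (r1_be D p G e - c) := by
      rw [hPen2, r1_exch]
      have h1 : ∀ e ∈ range (D + 1), G e * ∑ d ∈ range (e + 1), r1_al D p G d
          = (∑ d ∈ range (D + 1), r1_al D p G d - c) * G e
            - G e * (r1_be D p G e - c) := by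
        intro e _
        unfold r1_be
        ring
      rw [sum_congr rfl h1, sum_sub_distrib, ← mul_sum, hsum]
      ring
    have hCS : (∑ e ∈ range (D + 1), G e * (r1_be D p G e - c)) ^ 2 ≤ U * B := by
      apply sum_sq_le_sum_mul_sum_of_sq_le_mul
      · intro e _
        exact div_nonneg (sq_nonneg _) (mul_nonneg (by positivity) (hp e))
      · intro e _
        exact mul_nonneg (mul_nonneg (by positivity) (hp e)) (sq_nonneg _)
      · intro e _
        rcases (hp e).eq_or_lt with hz | hpos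
        · rw [hG0 e hz.symm]
          simp
        · have he1 : ((e : ℝ) + 1) ≠ 0 := by positivity
          have hpe : p e ≠ 0 := hpos.ne'
          apply le_of_eq
          field_simp
    have hPen0 : 0 ≤ Pen := le_trans (mul_nonneg hθ0.le hV0) hV
    have hB : B ≤ (1 - θ) / θ * Pen := by
      have h1 : V ≤ Pen / θ := by
        rw [le_div_iff₀ hθ0]
        linarith
      have h2 : Pen / θ - Pen = (1 - θ) / θ * Pen := by
        field_simp
      linarith
    have hsq : Pen ^ 2 ≤ U * B := by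
      rw [hPenG, neg_sq]
      exact hCS
    rcases hPen0.eq_or_lt with hz | hpos
    · rw [← hz]
      exact mul_nonneg hc0 hU0
    · have h3 : Pen * Pen ≤ ((1 - θ) / θ * U) * Pen := by
        calc Pen * Pen = Pen ^ 2 := by ring
          _ ≤ U * B := hsq
          _ ≤ U * ((1 - θ) / θ * Pen) := mul_le_mul_of_nonneg_left hB hU0
          _ = ((1 - θ) / θ * U) * Pen := by ring
      exact le_of_mul_le_mul_right h3 hpos

end Vale.Agent.H44.CT
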