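import Vale.Agent.H14.CT.BoxDefs

/-!
P328, Lemma (C): the lines of a column pair `a, b` with `z a + z b = σ` are counted by the
class with the caps of `a, b` set to zero.

Proof sketch.  A point of level `0` with `z a + z b = σ` has `z b = min σ (s b)` and
`z a = σ - min σ (s b)` (level `= min (z a) (s b - z b) = 0`).  So `z ↦ (z with the entries at
a, b replaced by 0)` is a bijection from the filter onto `Box n (zero2 a b s) (ρ - σ)`, with
inverse `y ↦ (y with the entries σ - min σ (s b) at a and min σ (s b) at b)`; the inverse lands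
in the class because `σ ≤ s a + s b` and `σ ≤ ρ`.
-/

namespace Vale.Agent.H44.CT

open Finset Vale.Agent.H14.CT

variable {n : ℕ}

/-- The caps with the columns `a, b` set to zero. -/
def zero2 (a b : Fin n) (s : Fin n → ℕ) : Fin n → ℕ := fun k => if k = a ∨ k = b then 0 else s k

private lemma r3_sum_two (a b : Fin n) (hab : a ≠ b) (v : Fin n → ℕ) :
    ∑ k, v k = v a + v b + ∑ k ∈ (univ.erase a).erase b, v k := by
  rw [← Finset.add_sum_erase univ v (Finset.mem_univ a),
    ← Finset.add_sum_erase (univ.erase a) v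
      (Finset.mem_erase.2 ⟨hab.symm, Finset.mem_univ b⟩), add_assoc]

/-- the vector `y` with the entries `σ - min σ (s b)` at `a` and `min σ (s b)` at `b` -/
private def r3_vec (a b : Fin n) (s : Fin n → ℕ) (σ : ℕ) (y : Fin n → ℕ) : Fin n → ℕ :=
  fun k => if k = a then σ - min σ (s b) else if k = b then min σ (s b) else y k

private lemma r3_vec_a (a b : Fin n) (s : Fin n → ℕ) (σ : ℕ) (y : Fin n → ℕ) :
    r3_vec a b s σ y a = σ - min σ (s b) := by
  unfold r3_vec
  rw [if_pos rfl]

private lemma r3_vec_b (a b : Fin n) (hab : a ≠ b) (s : Fin n → ℕ) (σ : ℕ) (y : Fin n → ℕ) :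
    r3_vec a b s σ y b = min σ (s b) := by
  unfold r3_vec
  rw [if_neg hab.symm, if_pos rfl]

private lemma r3_vec_other (a b : Fin n) (s : Fin n → ℕ) (σ : ℕ) (y : Fin n → ℕ) (k : Fin n)
    (hka : k ≠ a) (hkb : k ≠ b) : r3_vec a b s σ y k = y k := by
  unfold r3_vec
  rw [if_neg hka, if_neg hkb]

private lemma r3_zero2_a (a b : Fin n) (s : Fin n → ℕ) : zero2 a b s a = 0 := by
  unfold zero2
  rw [if_pos (Or.inl rfl)]

private lemma r3_zero2_b (a b : Fin n) (s : Fin n → ℕ) : zero2 a b s b = 0 := by
  unfold zero2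
  rw [if_pos (Or.inr rfl)]

private lemma r3_zero2_other (a b : Fin n) (s : Fin n → ℕ) (k : Fin n) (hka : k ≠ a)
    (hkb : k ≠ b) : zero2 a b s k = s k := by
  unfold zero2
  rw [if_neg (not_or.2 ⟨hka, hkb⟩)]

private lemma r3_vec_mem {s : Fin n → ℕ} {ρ : ℕ} (a b : Fin n) (hab : a ≠ b) (σ : ℕ)
    (hσρ : σ ≤ ρ) (hσS : σ ≤ s a + s b) (y : Box n (zero2 a b s) (ρ - σ)) :
    (∀ k, r3_vec a b s σ y.1 k ≤ s k) ∧ ∑ k, r3_vec a b s σ y.1 k = ρ := by
  have hya : y.1 a = 0 := by
    have h := y.2.1 a
    rw [r3_zero2_a] at h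
    omega
  have hyb : y.1 b = 0 := by
    have h := y.2.1 b
    rw [r3_zero2_b] at h
    omega
  constructor
  · intro k
    by_cases hka : k = a
    · rw [hka, r3_vec_a]
      omega
    · by_cases hkb : k = b
      · rw [hkb, r3_vec_b a b hab]
        omega
      · rw [r3_vec_other a b s σ y.1 k hka hkb]
        have h := y.2.1 k
        rw [r3_zero2_other a b s k hka hkb] at h
        exact h
  · have hsum := y.2.2
    rw [r3_sum_two a b hab] at hsum ⊢
    rw [r3_vec_a, r3_vec_b a b hab]
    have h : ∑ k ∈ (univ.erase a).erase b, r3_vec a b s σ y.1 k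
        = ∑ k ∈ (univ.erase a).erase b, y.1 k := by
      refine Finset.sum_congr rfl (fun k hk => ?_)
      have hkb : k ≠ b := (Finset.mem_erase.1 hk).1
      have hka : k ≠ a := (Finset.mem_erase.1 (Finset.mem_erase.1 hk).2).1
      exact r3_vec_other a b s σ y.1 k hka hkb
    rw [h]
    omega

/-- (B3) the lines of the pair `a, b` with `z a + z b = σ`, counted by their points of level
`0`, are as many as the vectors of the other columns with sum `ρ - σ`. -/
theorem line_count_link {s : Fin n → ℕ} {ρ : ℕ} (a b : Fin n) (hab : a ≠ b) (σ : ℕ)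
    (hσρ : σ ≤ ρ) (hσS : σ ≤ s a + s b) :
    (univ.filter (fun z : Box n s ρ => z.1 a + z.1 b = σ ∧ levelB a b z = 0)).card
      = Fintype.card (Box n (zero2 a b s) (ρ - σ)) := by
  classical
  rw [← Finset.card_univ]
  symm
  refine Finset.card_nbij
    (fun y => (⟨r3_vec a b s σ y.1, r3_vec_mem a b hab σ hσρ hσS y⟩ : Box n s ρ)) ?_ ?_ ?_
  · intro y _
    refine Finset.mem_coe.2 (Finset.mem_filter.2 ⟨Finset.mem_univ _, ?_, ?_⟩)
    · show r3_vec a b s σ y.1 a + r3_vec a b s σ y.1 b = σ
      rw [r3_vec_a, r3_vec_b a b hab]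
      omega
    · show min (r3_vec a b s σ y.1 a) (s b - r3_vec a b s σ y.1 b) = 0
      rw [r3_vec_a, r3_vec_b a b hab]
      omega
  · intro y _ y' _ h
    have hya : y.1 a = 0 := by
      have h := y.2.1 a
      rw [r3_zero2_a] at h
      omega
    have hyb : y.1 b = 0 := by
      have h := y.2.1 b
      rw [r3_zero2_b] at h
      omega
    have hya' : y'.1 a = 0 := by
      have h := y'.2.1 a
      rw [r3_zero2_a] at h
      omega
    have hyb' : y'.1 b = 0 := by
      have h := y'.2.1 b
      rw [r3_zero2_b] at h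
      omega
    apply Subtype.ext
    funext k
    by_cases hka : k = a
    · rw [hka, hya, hya']
    · by_cases hkb : k = b
      · rw [hkb, hyb, hyb']
      · have hk : r3_vec a b s σ y.1 k = r3_vec a b s σ y'.1 k :=
          congrFun (congrArg Subtype.val h) k
        rw [r3_vec_other a b s σ y.1 k hka hkb, r3_vec_other a b s σ y'.1 k hka hkb] at hk
        exact hk
  · intro z hz
    obtain ⟨-, hσz, hlev⟩ := Finset.mem_filter.1 (Finset.mem_coe.1 hz)
    have hlev' : min (z.1 a) (s b - z.1 b) = 0 := hlev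
    have hzb := z.2.1 b
    have hw : (∀ k, (fun k => if k = a ∨ k = b then 0 else z.1 k) k ≤ zero2 a b s k) ∧
        ∑ k, (fun k => if k = a ∨ k = b then 0 else z.1 k) k = ρ - σ := by
      constructor
      · intro k
        show (if k = a ∨ k = b then 0 else z.1 k) ≤ zero2 a b s k
        unfold zero2
        split_ifs
        · exact le_rfl
        · exact z.2.1 k
      · have hsum := z.2.2
        rw [r3_sum_two a b hab] at hsum ⊢
        have h : ∑ k ∈ (univ.erase a).erase b, (fun k => if k = a ∨ k = b then 0 else z.1 k) k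
            = ∑ k ∈ (univ.erase a).erase b, z.1 k := by
          refine Finset.sum_congr rfl (fun k hk => ?_)
          have hkb : k ≠ b := (Finset.mem_erase.1 hk).1
          have hka : k ≠ a := (Finset.mem_erase.1 (Finset.mem_erase.1 hk).2).1
          show (if k = a ∨ k = b then 0 else z.1 k) = z.1 k
          rw [if_neg (not_or.2 ⟨hka, hkb⟩)]
        rw [h]
        have h1 : (if a = a ∨ a = b then 0 else z.1 a) = 0 := if_pos (Or.inl rfl)
        have h2 : (if b = a ∨ b = b then 0 else z.1 b) = 0 := if_pos (Or.inr rfl)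
        rw [h1, h2]
        omega
    refine ⟨⟨fun k => if k = a ∨ k = b then 0 else z.1 k, hw⟩,
      Finset.mem_coe.2 (Finset.mem_univ _), ?_⟩
    apply Subtype.ext
    funext k
    show r3_vec a b s σ (fun k => if k = a ∨ k = b then 0 else z.1 k) k = z.1 k
    by_cases hka : k = a
    · rw [hka, r3_vec_a]
      omega
    · by_cases hkb : k = b
      · rw [hkb, r3_vec_b a b hab]
        omega
      · rw [r3_vec_other a b s σ _ k hka hkb]
        show (if k = a ∨ k = b then 0 else z.1 k) = z.1 k
        rw [if_neg (not_or.2 ⟨hka, hkb⟩)]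

end Vale.Agent.H44.CT
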