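import Mathlib

/-!
P328, Lemma (C): the mean-length inequality (ML) in abstract form.  If the numbers `P σ` of
lines with `z a + z b = σ` grow at most like binomial coefficients away from a line of depth
`u`, then `(u + 1) * (number of lines) ≤ (k + 1) * (number of tables)`.

Proof sketch.
`strongL2` (telescoping certificate, `T = u + 1`, `τ j = k T - (k + 1) j`).  Let `h 1 = 1`,
`h (j + 1) = h j * j / (j + k)` (so `0 ≤ h j ≤ 1 / j`, as `k ≥ 1`), and
`lam j = T - j + 1 - T * h j`.  Then `lam 1 = 0`, `lam (j + 1) * (j + k) = j * lam j + τ j`, and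
`lam j ≥ T - j + 1 - T / j = (j - 1) (T - j) / j ≥ 0` for `1 ≤ j ≤ T`.  By induction on
`m ≤ u`:  `∑ j ∈ Icc 1 m, τ j * a j ≥ lam (m + 1) * (m + k) * a m`  (step: `hrec` at `j = m + 1`
gives `(m + k) a m ≥ (m + 1) a (m + 1)`, so the bound is `≥ (m + 1) lam (m + 1) a (m + 1)`,
and adding `τ (m + 1) a (m + 1)` gives `lam (m + 2) (m + 1 + k) a (m + 1)`).  At `m = u` the
right side is `≥ 0`.
`ml_abs`: `∑ σ ≤ S, P σ * ((k + 1) (dep σ + 1) - (u + 1)) ≥ 0`: split `range (S + 1)` into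
`σ < u` (here `σ = u - j`, the bracket is `τ j`, use `strongL2` with `a j = P (u - j)`),
`u ≤ σ ≤ S - u` (bracket `≥ k (u + 1) ≥ 0`) and `S - u < σ ≤ S` (`σ = S - u + j`, bracket
`τ j`, `strongL2` with `a j = P (S - u + j)`).
-/

namespace Vale.Agent.H44.CT

open Finset

/-- the weights of the certificate: `r5_g k i` is `h (i + 1)` of the sketch -/
noncomputable def r5_g (k : ℕ) : ℕ → ℝ
  | 0 => 1
  | (i + 1) => r5_g k i * ((i : ℝ) + 1) / ((i : ℝ) + 1 + k)

lemma r5_g_nonneg (k : ℕ) (i : ℕ) : 0 ≤ r5_g k i := by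
  induction i with
  | zero => simp [r5_g]
  | succ i ih =>
    simp only [r5_g]
    exact div_nonneg (mul_nonneg ih (by positivity)) (by positivity)

lemma r5_g_le (k : ℕ) (hk : 1 ≤ k) (i : ℕ) : r5_g k i * ((i : ℝ) + 1) ≤ 1 := by
  induction i with
  | zero => simp [r5_g]
  | succ i ih =>
    simp only [r5_g]
    push_cast
    have hk' : (1 : ℝ) ≤ k := by exact_mod_cast hk
    have hpos : (0 : ℝ) < (i : ℝ) + 1 + k := by positivity
    rw [div_mul_eq_mul_div, div_le_one hpos]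
    have h1 := mul_le_mul_of_nonneg_right ih (by positivity : (0 : ℝ) ≤ (i : ℝ) + 1 + 1)
    linarith

/-- the multipliers of the certificate: `r5_L k u i` is `lam (i + 1)` of the sketch -/
noncomputable def r5_L (k u : ℕ) (i : ℕ) : ℝ :=
  (u : ℝ) + 1 - i - ((u : ℝ) + 1) * r5_g k i

lemma r5_L_zero (k u : ℕ) : r5_L k u 0 = 0 := by
  simp [r5_L, r5_g]

lemma r5_L_succ (k u i : ℕ) :
    r5_L k u (i + 1) * ((i : ℝ) + 1 + k)
      = ((i : ℝ) + 1) * r5_L k u i + ((k : ℝ) * (u + 1) - (k + 1) * ((i : ℝ) + 1)) := by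
  simp only [r5_L, r5_g]
  push_cast
  have hpos : (i : ℝ) + 1 + k ≠ 0 := by positivity
  field_simp
  ring

lemma r5_L_nonneg (k : ℕ) (hk : 1 ≤ k) (u i : ℕ) (hi : i ≤ u) : 0 ≤ r5_L k u i := by
  have h1 := r5_g_le k hk i
  have hiu : (i : ℝ) ≤ u := by exact_mod_cast hi
  have h2 : ((u : ℝ) + 1) * (r5_g k i * ((i : ℝ) + 1)) ≤ ((u : ℝ) + 1) * 1 :=
    mul_le_mul_of_nonneg_left h1 (by positivity)
  have h3 : 0 ≤ (i : ℝ) * ((u : ℝ) - i) := mul_nonneg (Nat.cast_nonneg i) (sub_nonneg.mpr hiu)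
  have e : r5_L k u i * ((i : ℝ) + 1)
      = (i : ℝ) * ((u : ℝ) - i)
        + (((u : ℝ) + 1) * 1 - ((u : ℝ) + 1) * (r5_g k i * ((i : ℝ) + 1))) := by
    unfold r5_L
    ring
  have h4 : 0 ≤ r5_L k u i * ((i : ℝ) + 1) := by
    rw [e]
    linarith
  exact nonneg_of_mul_nonneg_left h4 (by positivity)

lemma r5_ind (k : ℕ) (hk : 1 ≤ k) (u : ℕ) (a : ℕ → ℝ)
    (hrec : ∀ j, 2 ≤ j → j ≤ u → (j : ℝ) * a j ≤ ((j : ℝ) + k - 1) * a (j - 1)) :
    ∀ i, i + 1 ≤ u →
      r5_L k u (i + 1) * ((i : ℝ) + 1 + k) * a (i + 1)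
        ≤ ∑ j ∈ Icc 1 (i + 1), ((k : ℝ) * (u + 1) - (k + 1) * j) * a j := by
  intro i
  induction i with
  | zero =>
    intro _
    have h := r5_L_succ k u 0
    rw [r5_L_zero] at h
    simp only [Nat.cast_zero, zero_add, mul_zero] at h ⊢
    rw [h]
    simp
  | succ i ih =>
    intro hi
    rw [Finset.sum_Icc_succ_top (by omega)]
    have ih' := ih (by omega)
    have hL := r5_L_succ k u (i + 1)
    have hnn := r5_L_nonneg k hk u (i + 1) (by omega)
    have hr : ((i : ℝ) + 2) * a (i + 1 + 1) ≤ ((i : ℝ) + 1 + k) * a (i + 1) := by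
      have h := hrec (i + 1 + 1) (by omega) hi
      have e : i + 1 + 1 - 1 = i + 1 := by omega
      rw [e] at h
      push_cast at h
      have e2 : (i : ℝ) + 1 + 1 + k - 1 = (i : ℝ) + 1 + k := by ring
      have e3 : (i : ℝ) + 1 + 1 = (i : ℝ) + 2 := by ring
      rw [e2, e3] at h
      exact h
    have h1 := mul_le_mul_of_nonneg_left hr hnn
    push_cast at hL ⊢
    have e4 : r5_L k u (i + 1 + 1) * ((i : ℝ) + 1 + 1 + k) * a (i + 1 + 1)
        = r5_L k u (i + 1) * (((i : ℝ) + 2) * a (i + 1 + 1))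
          + ((k : ℝ) * (u + 1) - (k + 1) * ((i : ℝ) + 1 + 1)) * a (i + 1 + 1) := by
      rw [hL]
      ring
    rw [e4]
    linarith

/-- Telescoping certificate: sequences that grow at most like binomial coefficients. -/
theorem strongL2 (k : ℕ) (hk : 1 ≤ k) (u : ℕ) (a : ℕ → ℝ) (ha : ∀ j, 0 ≤ a j)
    (hrec : ∀ j, 2 ≤ j → j ≤ u → (j : ℝ) * a j ≤ ((j : ℝ) + k - 1) * a (j - 1)) :
    0 ≤ ∑ j ∈ Icc 1 u, ((k : ℝ) * (u + 1) - (k + 1) * j) * a j := by
  rcases u with _ | u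
  · simp
  · have h := r5_ind k hk (u + 1) a hrec u le_rfl
    have hnn := r5_L_nonneg k hk (u + 1) (u + 1) le_rfl
    refine le_trans ?_ h
    exact mul_nonneg (mul_nonneg hnn (by positivity)) (ha _)

/-- Abstract mean-length inequality. -/
theorem ml_abs (k : ℕ) (hk : 1 ≤ k) (S u : ℕ) (hu : 2 * u ≤ S) (P : ℕ → ℝ) (dep : ℕ → ℕ)
    (hP : ∀ σ, 0 ≤ P σ)
    (hmid : ∀ σ, u ≤ σ → σ + u ≤ S → u ≤ dep σ)
    (hleft : ∀ σ, σ < u → dep σ = σ)
    (hright : ∀ σ, S < σ + u → σ ≤ S → dep σ = S - σ)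
    (hL : ∀ j, 2 ≤ j → j ≤ u → (j : ℝ) * P (u - j) ≤ ((j : ℝ) + k - 1) * P (u - j + 1))
    (hR : ∀ j, 2 ≤ j → j ≤ u →
      (j : ℝ) * P (S - u + j) ≤ ((j : ℝ) + k - 1) * P (S - u + j - 1)) :
    ((u : ℝ) + 1) * ∑ σ ∈ range (S + 1), P σ
      ≤ ((k : ℝ) + 1) * ∑ σ ∈ range (S + 1), ((dep σ : ℝ) + 1) * P σ := by
  -- the summand of the difference
  have hF : ∑ σ ∈ range (S + 1), P σ * (((k : ℝ) + 1) * ((dep σ : ℝ) + 1) - ((u : ℝ) + 1))
      = ((k : ℝ) + 1) * ∑ σ ∈ range (S + 1), ((dep σ : ℝ) + 1) * P σ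
        - ((u : ℝ) + 1) * ∑ σ ∈ range (S + 1), P σ := by
    rw [Finset.mul_sum, Finset.mul_sum, ← Finset.sum_sub_distrib]
    apply Finset.sum_congr rfl
    intro σ _
    ring
  -- the left slope
  have hleftsum : ∑ σ ∈ Ico 0 u, P σ * (((k : ℝ) + 1) * ((dep σ : ℝ) + 1) - ((u : ℝ) + 1))
      = ∑ j ∈ Icc 1 u, ((k : ℝ) * (u + 1) - (k + 1) * j) * P (u - j) := by
    apply Finset.sum_nbij' (fun σ => u - σ) (fun j => u - j)
    · intro σ hσ
      rw [Finset.mem_Ico] at hσ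
      rw [Finset.mem_Icc]
      omega
    · intro j hj
      rw [Finset.mem_Icc] at hj
      rw [Finset.mem_Ico]
      omega
    · intro σ hσ
      rw [Finset.mem_Ico] at hσ
      omega
    · intro j hj
      rw [Finset.mem_Icc] at hj
      omega
    · intro σ hσ
      rw [Finset.mem_Ico] at hσ
      have hσu : σ < u := hσ.2
      have e1 : u - (u - σ) = σ := by omega
      rw [e1, hleft σ hσu, Nat.cast_sub hσu.le]
      ring
  -- the right slope
  have hrightsum : ∑ σ ∈ Ico (S - u + 1) (S + 1),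
        P σ * (((k : ℝ) + 1) * ((dep σ : ℝ) + 1) - ((u : ℝ) + 1))
      = ∑ j ∈ Icc 1 u, ((k : ℝ) * (u + 1) - (k + 1) * j) * P (S - u + j) := by
    apply Finset.sum_nbij' (fun σ => σ - (S - u)) (fun j => S - u + j)
    · intro σ hσ
      rw [Finset.mem_Ico] at hσ
      rw [Finset.mem_Icc]
      omega
    · intro j hj
      rw [Finset.mem_Icc] at hj
      rw [Finset.mem_Ico]
      omega
    · intro σ hσ
      rw [Finset.mem_Ico] at hσ
      omega
    · intro j hj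
      rw [Finset.mem_Icc] at hj
      omega
    · intro σ hσ
      rw [Finset.mem_Ico] at hσ
      have e1 : S - u + (σ - (S - u)) = σ := by omega
      have h1 : σ + u = S + (σ - (S - u)) := by omega
      have h2 : dep σ + σ = S := by
        rw [hright σ (by omega) (by omega)]
        omega
      have h1c : (σ : ℝ) + u = S + ((σ - (S - u) : ℕ) : ℝ) := by exact_mod_cast h1
      have h2c : (dep σ : ℝ) + σ = S := by exact_mod_cast h2
      have e2 : (dep σ : ℝ) = (S : ℝ) - σ := by linarith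
      have e3 : ((σ - (S - u) : ℕ) : ℝ) = (σ : ℝ) + u - S := by linarith
      rw [e1, e2, e3]
      ring
  -- strongL2 on the two slopes
  have hA := strongL2 k hk u (fun j => P (u - j)) (fun j => hP _) (by
    intro j hj2 hju
    have e : u - (j - 1) = u - j + 1 := by omega
    rw [e]
    exact hL j hj2 hju)
  have hB := strongL2 k hk u (fun j => P (S - u + j)) (fun j => hP _) (by
    intro j hj2 hju
    have e : S - u + (j - 1) = S - u + j - 1 := by omega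
    rw [e]
    exact hR j hj2 hju)
  -- the middle part
  have hM : 0 ≤ ∑ σ ∈ Ico u (S - u + 1),
      P σ * (((k : ℝ) + 1) * ((dep σ : ℝ) + 1) - ((u : ℝ) + 1)) := by
    apply Finset.sum_nonneg
    intro σ hσ
    rw [Finset.mem_Ico] at hσ
    have h1 : u ≤ dep σ := hmid σ hσ.1 (by omega)
    have h1c : (u : ℝ) ≤ dep σ := by exact_mod_cast h1
    have hk0 : (0 : ℝ) ≤ k := Nat.cast_nonneg k
    apply mul_nonneg (hP σ)
    nlinarith [mul_nonneg hk0 (by linarith : (0 : ℝ) ≤ (dep σ : ℝ) + 1 - ((u : ℝ) + 1)),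
      mul_nonneg hk0 (by positivity : (0 : ℝ) ≤ (u : ℝ) + 1)]
  have hsplit : ∑ σ ∈ range (S + 1), P σ * (((k : ℝ) + 1) * ((dep σ : ℝ) + 1) - ((u : ℝ) + 1))
      = ∑ σ ∈ Ico 0 u, P σ * (((k : ℝ) + 1) * ((dep σ : ℝ) + 1) - ((u : ℝ) + 1))
        + ∑ σ ∈ Ico u (S - u + 1), P σ * (((k : ℝ) + 1) * ((dep σ : ℝ) + 1) - ((u : ℝ) + 1))
        + ∑ σ ∈ Ico (S - u + 1) (S + 1),
            P σ * (((k : ℝ) + 1) * ((dep σ : ℝ) + 1) - ((u : ℝ) + 1)) := by
    rw [Finset.sum_Ico_consecutive _ (Nat.zero_le u) (by omega),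
      Finset.sum_Ico_consecutive _ (Nat.zero_le _) (by omega), Finset.range_eq_Ico]
  rw [hleftsum, hrightsum] at hsplit
  linarith

end Vale.Agent.H44.CT
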