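import Vale.Agent.H44.CT.LemCStruct
import Vale.Agent.H44.CT.BoxCount
import Vale.Agent.H44.CT.LineCount
import Vale.Agent.H44.CT.MLCert

/-!
P328, Lemma (C): the mean-length inequality (ML) on a box-slice class.  For every table `z₀`
and every pair of columns `a ≠ b`:
`(depth of the line of z₀ + 1) * (number of lines) ≤ (n - 1) * (number of tables)`.
-/

namespace Vale.Agent.H44.CT

open Finset Vale.Agent.H90 Vale.Agent.H14.CT

variable {n : ℕ}

/-- The number of lines with `z a + z b = σ` (counted by their points of level `0`). -/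
noncomputable def PS (s : Fin n → ℕ) (ρ : ℕ) (a b : Fin n) (σ : ℕ) : ℝ :=
  ((univ.filter (fun z : Box n s ρ => z.1 a + z.1 b = σ ∧ levelB a b z = 0)).card : ℝ)

/-- The depth of a line as a function of `σ = z a + z b`. -/
def depS (s : Fin n → ℕ) (a b : Fin n) (σ : ℕ) : ℕ :=
  min (min σ (s a + s b - σ)) (min (s a) (s b))

variable {s : Fin n → ℕ} {ρ : ℕ}

theorem PS_nonneg (a b : Fin n) (σ : ℕ) : 0 ≤ PS s ρ a b σ := by
  unfold PS
  exact Nat.cast_nonneg _

theorem depthB_eq_depS (a b : Fin n) (z : Box n s ρ) :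
    depthB a b z = depS s a b (z.1 a + z.1 b) := by
  have ha := z.2.1 a
  have hb := z.2.1 b
  unfold depthB depS
  have h : (s a - z.1 a) + (s b - z.1 b) = s a + s b - (z.1 a + z.1 b) := by omega
  rw [h]

theorem sig_le_S (a b : Fin n) (z : Box n s ρ) : z.1 a + z.1 b ≤ s a + s b :=
  add_le_add (z.2.1 a) (z.2.1 b)

theorem sig_le_rho (a b : Fin n) (hab : a ≠ b) (z : Box n s ρ) : z.1 a + z.1 b ≤ ρ := by
  have h := sum_two_erase a b hab z.1
  rw [z.2.2] at h
  omega

/-- The number of lines, by `σ`. -/
theorem card_level_zero_sig (a b : Fin n) :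
    ((univ.filter (fun z : Box n s ρ => levelB a b z = 0)).card : ℝ)
      = ∑ σ ∈ range (s a + s b + 1), PS s ρ a b σ := by
  have h : (univ.filter (fun z : Box n s ρ => levelB a b z = 0)).card
      = ∑ σ ∈ range (s a + s b + 1),
          (univ.filter (fun z : Box n s ρ => z.1 a + z.1 b = σ ∧ levelB a b z = 0)).card := by
    rw [Finset.card_eq_sum_card_fiberwise (f := fun z : Box n s ρ => z.1 a + z.1 b)
      (t := range (s a + s b + 1))]
    · refine Finset.sum_congr rfl (fun σ _ => ?_)
      rw [Finset.filter_filter]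
      congr 1
      ext z
      simp only [mem_filter, mem_univ, true_and]
      exact and_comm
    · intro z _
      refine Finset.mem_coe.2 ?_
      show z.1 a + z.1 b ∈ range (s a + s b + 1)
      have := sig_le_S a b z
      exact mem_range.2 (by omega)
  rw [h]
  unfold PS
  push_cast
  rfl

/-- A `σ`-class has `depS σ + 1` points on each of its lines. -/
theorem card_sig_eq (a b : Fin n) (hab : a ≠ b) (σ : ℕ) :
    ((univ.filter (fun z : Box n s ρ => z.1 a + z.1 b = σ)).card : ℝ)
      = ((depS s a b σ : ℝ) + 1) * PS s ρ a b σ := by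
  have h2 : (univ.filter (fun z : Box n s ρ => z.1 a + z.1 b = σ)).card
      = ∑ t ∈ range (depS s a b σ + 1),
          (univ.filter (fun z : Box n s ρ => z.1 a + z.1 b = σ ∧ levelB a b z = t)).card := by
    rw [Finset.card_eq_sum_card_fiberwise (f := fun z : Box n s ρ => levelB a b z)
      (t := range (depS s a b σ + 1))]
    · refine Finset.sum_congr rfl (fun t _ => ?_)
      rw [Finset.filter_filter]
    · intro z hz
      have hz := Finset.mem_coe.1 hz
      simp only [mem_filter, mem_univ, true_and] at hz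
      have h1 := levelB_le_depthB a b hab z
      have h2 := depthB_eq_depS a b z
      rw [hz] at h2
      refine Finset.mem_coe.2 ?_
      show levelB a b z ∈ range (depS s a b σ + 1)
      exact mem_range.2 (by omega)
  have h3 : ∀ t ∈ range (depS s a b σ + 1),
      (univ.filter (fun z : Box n s ρ => z.1 a + z.1 b = σ ∧ levelB a b z = t)).card
        = (univ.filter (fun z : Box n s ρ => z.1 a + z.1 b = σ ∧ levelB a b z = 0)).card := by
    intro t ht
    have ht' : t ≤ depS s a b σ := by
      have := mem_range.1 ht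
      omega
    rw [card_level_shift a b hab (fun z : Box n s ρ => z.1 a + z.1 b = σ)
      (fun z w h => by rw [lineRel_sum a b hab z w h]) t]
    congr 1
    ext z
    simp only [mem_filter, mem_univ, true_and]
    constructor
    · rintro ⟨he, h0, _⟩
      exact ⟨he, h0⟩
    · rintro ⟨he, h0⟩
      have h2 := depthB_eq_depS a b z
      rw [he] at h2
      exact ⟨he, h0, by omega⟩
  rw [h2, Finset.sum_congr rfl h3, Finset.sum_const, Finset.card_range, smul_eq_mul]
  unfold PS
  push_cast
  ring

/-- The number of tables, by `σ`. -/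
theorem card_box_sig (a b : Fin n) (hab : a ≠ b) :
    (Fintype.card (Box n s ρ) : ℝ)
      = ∑ σ ∈ range (s a + s b + 1), ((depS s a b σ : ℝ) + 1) * PS s ρ a b σ := by
  have h : Fintype.card (Box n s ρ)
      = ∑ σ ∈ range (s a + s b + 1),
          (univ.filter (fun z : Box n s ρ => z.1 a + z.1 b = σ)).card := by
    rw [← Finset.card_univ]
    rw [Finset.card_eq_sum_card_fiberwise (f := fun z : Box n s ρ => z.1 a + z.1 b)
      (t := range (s a + s b + 1))]
    intro z _
    refine Finset.mem_coe.2 ?_
    show z.1 a + z.1 b ∈ range (s a + s b + 1)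
    have := sig_le_S a b z
    exact mem_range.2 (by omega)
  rw [h]
  push_cast
  exact Finset.sum_congr rfl (fun σ _ => card_sig_eq a b hab σ)

theorem PS_eq_card (a b : Fin n) (hab : a ≠ b) (σ : ℕ) (h1 : σ ≤ ρ) (h2 : σ ≤ s a + s b) :
    PS s ρ a b σ = (Fintype.card (Box n (zero2 a b s) (ρ - σ)) : ℝ) := by
  unfold PS
  rw [line_count_link a b hab σ h1 h2]

theorem PS_eq_zero (a b : Fin n) (hab : a ≠ b) (σ : ℕ) (h : ρ < σ) : PS s ρ a b σ = 0 := by
  unfold PS
  have he : univ.filter (fun z : Box n s ρ => z.1 a + z.1 b = σ ∧ levelB a b z = 0) = ∅ := by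
    refine Finset.filter_eq_empty_iff.2 (fun z _ hz => ?_)
    have := sig_le_rho a b hab z
    omega
  rw [he]
  simp

theorem two_le_of_ne (a b : Fin n) (hab : a ≠ b) : 2 ≤ n := by
  have h1 := a.2
  have h2 := b.2
  have h3 : a.val ≠ b.val := fun h => hab (Fin.ext h)
  omega

/-- At most `n - 2` columns have a positive cap after setting the caps of `a, b` to zero. -/
theorem card_pos_zero2 (a b : Fin n) (hab : a ≠ b) (s : Fin n → ℕ) :
    (univ.filter (fun c : Fin n => 0 < zero2 a b s c)).card + 2 ≤ n := by
  have hsub : univ.filter (fun c : Fin n => 0 < zero2 a b s c) ⊆ (univ.erase a).erase b := by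
    intro c hc
    simp only [mem_filter, mem_univ, true_and] at hc
    unfold zero2 at hc
    by_cases h : c = a ∨ c = b
    · rw [if_pos h] at hc
      exact absurd hc (lt_irrefl 0)
    · have h := not_or.1 h
      exact mem_erase.2 ⟨h.2, mem_erase.2 ⟨h.1, mem_univ c⟩⟩
  have hcard : ((univ.erase a).erase b).card + 2 = n := by
    rw [card_erase_of_mem (mem_erase.2 ⟨hab.symm, mem_univ b⟩), card_erase_of_mem (mem_univ a),
      card_univ, Fintype.card_fin]
    have := two_le_of_ne a b hab
    omega
  have := card_le_card hsub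
  omega

theorem sum_zero2 (a b : Fin n) (hab : a ≠ b) (s : Fin n → ℕ) :
    ∑ k, zero2 a b s k = ∑ k ∈ (univ.erase a).erase b, s k := by
  rw [sum_two_erase a b hab (zero2 a b s)]
  have ha : zero2 a b s a = 0 := by
    unfold zero2
    rw [if_pos (Or.inl rfl)]
  have hb : zero2 a b s b = 0 := by
    unfold zero2
    rw [if_pos (Or.inr rfl)]
  rw [ha, hb, zero_add, zero_add]
  refine Finset.sum_congr rfl (fun k hk => ?_)
  have hkb : k ≠ b := (Finset.mem_erase.1 hk).1
  have hka : k ≠ a := (Finset.mem_erase.1 (Finset.mem_erase.1 hk).2).1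
  unfold zero2
  rw [if_neg (not_or.2 ⟨hka, hkb⟩)]

theorem rho_le_M (a b : Fin n) (hab : a ≠ b) (z : Box n s ρ) :
    ρ ≤ (∑ k, zero2 a b s k) + (z.1 a + z.1 b) := by
  have h := sum_two_erase a b hab z.1
  rw [z.2.2] at h
  rw [sum_zero2 a b hab s]
  have hle : ∑ k ∈ (univ.erase a).erase b, z.1 k ≤ ∑ k ∈ (univ.erase a).erase b, s k :=
    Finset.sum_le_sum (fun k _ => z.2.1 k)
  omega

/-- The growth bound for the class of the other columns, with `K` replaced by `n - 2`. -/
theorem c_step (a b : Fin n) (hab : a ≠ b) (s : Fin n → ℕ) (m : ℕ) :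
    ((m : ℝ) + 1) * (Fintype.card (Box n (zero2 a b s) (m + 1)) : ℝ)
      ≤ ((m : ℝ) + ((n : ℝ) - 2)) * (Fintype.card (Box n (zero2 a b s) m) : ℝ) := by
  refine le_trans (box_card_succ_le (zero2 a b s) m) ?_
  have hK := card_pos_zero2 a b hab s
  have hK' : ((univ.filter (fun c : Fin n => 0 < zero2 a b s c)).card : ℝ) ≤ (n : ℝ) - 2 := by
    have : ((univ.filter (fun c : Fin n => 0 < zero2 a b s c)).card : ℝ) + 2 ≤ (n : ℝ) := by
      exact_mod_cast hK
    linarith
  have hc : (0 : ℝ) ≤ (Fintype.card (Box n (zero2 a b s) m) : ℝ) := Nat.cast_nonneg _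
  exact mul_le_mul_of_nonneg_right (by linarith) hc

theorem cross_mul (w j k X Y : ℝ) (hw : 0 ≤ w) (hj : 0 < j) (hk : 1 ≤ k) (hY : 0 ≤ Y)
    (h : (w + j) * X ≤ (w + j - 1 + k) * Y) : j * X ≤ (j + k - 1) * Y := by
  have hpos : 0 < w + j := by linarith
  have h1 : (w + j) * (j * X) ≤ (w + j) * ((j + k - 1) * Y) := by
    have h2 : j * ((w + j) * X) ≤ j * ((w + j - 1 + k) * Y) := mul_le_mul_of_nonneg_left h hj.le
    have h3 : 0 ≤ (k - 1) * w * Y := mul_nonneg (mul_nonneg (by linarith) hw) hY
    nlinarith
  exact le_of_mul_le_mul_left h1 hpos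

/-- The mean-length inequality (ML). -/
theorem ml_class (a b : Fin n) (hab : a ≠ b) (z₀ : Box n s ρ) :
    ((depthB a b z₀ : ℝ) + 1) * ((univ.filter (fun z : Box n s ρ => levelB a b z = 0)).card : ℝ)
      ≤ ((n : ℝ) - 1) * (Fintype.card (Box n s ρ) : ℝ) := by
  have hn2 := two_le_of_ne a b hab
  by_cases hn : n = 2
  · -- a single line
    have hline : ∀ z w : Box n s ρ, LineRel a b z w := by
      intro z w k hka hkb
      exfalso
      have h1 := a.2
      have h2 := b.2
      have h3 := k.2
      have h4 : a.val ≠ b.val := fun h => hab (Fin.ext h)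
      have h5 : k.val ≠ a.val := fun h => hka (Fin.ext h)
      have h6 : k.val ≠ b.val := fun h => hkb (Fin.ext h)
      omega
    have hΛ : (univ.filter (fun z : Box n s ρ => levelB a b z = 0)).card ≤ 1 := by
      refine Finset.card_le_one.2 (fun z hz w hw => ?_)
      simp only [mem_filter, mem_univ, true_and] at hz hw
      exact eq_of_line_level a b hab z w (hline z w) (by rw [hz, hw])
    have hF : (depthB a b z₀ : ℝ) + 1 ≤ (Fintype.card (Box n s ρ) : ℝ) := by
      rw [← box_class_card a b hab z₀]
      have : (univ.filter (fun z' : Box n s ρ => LineRel a b z₀ z')).card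
          ≤ Fintype.card (Box n s ρ) := by
        rw [← Finset.card_univ]
        exact Finset.card_le_card (Finset.filter_subset _ _)
      exact_mod_cast this
    have hΛ' : ((univ.filter (fun z : Box n s ρ => levelB a b z = 0)).card : ℝ) ≤ 1 := by
      exact_mod_cast hΛ
    have hd : (0 : ℝ) ≤ (depthB a b z₀ : ℝ) + 1 := by positivity
    have hn' : (n : ℝ) = 2 := by exact_mod_cast hn
    rw [hn']
    nlinarith
  · have hn3 : 3 ≤ n := by omega
    have huσ := depthB_eq_depS a b z₀
    have hσS := sig_le_S a b z₀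
    have hσρ := sig_le_rho a b hab z₀
    have hρM := rho_le_M a b hab z₀
    have hu1 : depthB a b z₀ ≤ z₀.1 a + z₀.1 b ∧ depthB a b z₀ + (z₀.1 a + z₀.1 b) ≤ s a + s b
        ∧ depthB a b z₀ ≤ s a ∧ depthB a b z₀ ≤ s b := by
      rw [huσ]
      unfold depS
      omega
    obtain ⟨hu_σ, hu_S, hu_a, hu_b⟩ := hu1
    have hk1 : 1 ≤ n - 2 := by omega
    have hkcast : ((n - 2 : ℕ) : ℝ) = (n : ℝ) - 2 := by
      rw [Nat.cast_sub hn2]
      norm_num
    have key := ml_abs (n - 2) hk1 (s a + s b) (depthB a b z₀) (by omega) (PS s ρ a b)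
      (depS s a b) (PS_nonneg a b)
      (by
        intro σ h1 h2
        unfold depS
        omega)
      (by
        intro σ h1
        unfold depS
        omega)
      (by
        intro σ h1 h2
        unfold depS
        omega)
      (by
        intro j hj2 hju
        -- left slope
        have e1 : PS s ρ a b (depthB a b z₀ - j)
            = (Fintype.card (Box n (zero2 a b s) (ρ - (depthB a b z₀ - j))) : ℝ) :=
          PS_eq_card a b hab _ (by omega) (by omega)
        have e2 : PS s ρ a b (depthB a b z₀ - j + 1)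
            = (Fintype.card (Box n (zero2 a b s) (ρ - (depthB a b z₀ - j + 1))) : ℝ) :=
          PS_eq_card a b hab _ (by omega) (by omega)
        have hB := c_step a b hab s (ρ - (depthB a b z₀ - j + 1))
        have hm : ρ - (depthB a b z₀ - j + 1) + 1 = ρ - (depthB a b z₀ - j) := by omega
        rw [hm, ← e1, ← e2] at hB
        have hcast : ((ρ - (depthB a b z₀ - j + 1) : ℕ) : ℝ) + 1
            = ((ρ - depthB a b z₀ : ℕ) : ℝ) + (j : ℝ) := by
          have : ρ - (depthB a b z₀ - j + 1) + 1 = (ρ - depthB a b z₀) + j := by omega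
          exact_mod_cast this
        rw [hkcast]
        refine cross_mul ((ρ - depthB a b z₀ : ℕ) : ℝ) (j : ℝ) ((n : ℝ) - 2) _ _
          (Nat.cast_nonneg _) (by
            have : (0 : ℝ) < (2 : ℝ) := by norm_num
            have h2 : (2 : ℝ) ≤ (j : ℝ) := by exact_mod_cast hj2
            linarith) (by
            have : (3 : ℝ) ≤ (n : ℝ) := by exact_mod_cast hn3
            linarith) (PS_nonneg a b _) ?_
        rw [← hcast]
        have hB' : ((ρ - (depthB a b z₀ - j + 1) : ℕ) : ℝ) + 1 - 1 + ((n : ℝ) - 2)
            = ((ρ - (depthB a b z₀ - j + 1) : ℕ) : ℝ) + ((n : ℝ) - 2) := by ring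
        rw [hB']
        exact hB)
      (by
        intro j hj2 hju
        -- right slope
        by_cases hσ : ρ < s a + s b - depthB a b z₀ + j
        · rw [PS_eq_zero a b hab _ hσ, mul_zero]
          refine mul_nonneg ?_ (PS_nonneg a b _)
          have h2 : (2 : ℝ) ≤ (j : ℝ) := by exact_mod_cast hj2
          have h3 : (0 : ℝ) ≤ ((n - 2 : ℕ) : ℝ) := Nat.cast_nonneg _
          linarith
        · have hσ := not_lt.1 hσ
          have e1 : PS s ρ a b (s a + s b - depthB a b z₀ + j)
              = (Fintype.card (Box n (zero2 a b s)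
                  (ρ - (s a + s b - depthB a b z₀ + j))) : ℝ) :=
            PS_eq_card a b hab _ hσ (by omega)
          have e2 : PS s ρ a b (s a + s b - depthB a b z₀ + j - 1)
              = (Fintype.card (Box n (zero2 a b s)
                  (ρ - (s a + s b - depthB a b z₀ + j - 1))) : ℝ) :=
            PS_eq_card a b hab _ (by omega) (by omega)
          have hmM : ρ - (s a + s b - depthB a b z₀ + j) + j ≤ ∑ k, zero2 a b s k := by omega
          have s1 := box_card_symm (zero2 a b s) (ρ - (s a + s b - depthB a b z₀ + j))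
            (by omega)
          have s2 := box_card_symm (zero2 a b s) (ρ - (s a + s b - depthB a b z₀ + j - 1))
            (by omega)
          have hB := c_step a b hab s
            ((∑ k, zero2 a b s k) - (ρ - (s a + s b - depthB a b z₀ + j - 1)))
          have hm : (∑ k, zero2 a b s k) - (ρ - (s a + s b - depthB a b z₀ + j - 1)) + 1
              = (∑ k, zero2 a b s k) - (ρ - (s a + s b - depthB a b z₀ + j)) := by omega
          rw [hm, ← s1, ← s2, ← e1, ← e2] at hB
          have hcast : (((∑ k, zero2 a b s k) - (ρ - (s a + s b - depthB a b z₀ + j - 1)) : ℕ)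
                : ℝ) + 1
              = (((∑ k, zero2 a b s k) - (ρ - (s a + s b - depthB a b z₀ + j)) - j : ℕ) : ℝ)
                + (j : ℝ) := by
            have : (∑ k, zero2 a b s k) - (ρ - (s a + s b - depthB a b z₀ + j - 1)) + 1
                = ((∑ k, zero2 a b s k) - (ρ - (s a + s b - depthB a b z₀ + j)) - j) + j := by
              omega
            exact_mod_cast this
          rw [hkcast]
          refine cross_mul
            (((∑ k, zero2 a b s k) - (ρ - (s a + s b - depthB a b z₀ + j)) - j : ℕ) : ℝ)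
            (j : ℝ) ((n : ℝ) - 2) _ _ (Nat.cast_nonneg _) (by
              have h2 : (2 : ℝ) ≤ (j : ℝ) := by exact_mod_cast hj2
              linarith) (by
              have : (3 : ℝ) ≤ (n : ℝ) := by exact_mod_cast hn3
              linarith) (PS_nonneg a b _) ?_
          rw [← hcast]
          have hB' : (((∑ k, zero2 a b s k) - (ρ - (s a + s b - depthB a b z₀ + j - 1)) : ℕ)
                : ℝ) + 1 - 1 + ((n : ℝ) - 2)
              = (((∑ k, zero2 a b s k) - (ρ - (s a + s b - depthB a b z₀ + j - 1)) : ℕ) : ℝ)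
                + ((n : ℝ) - 2) := by ring
          rw [hB']
          exact hB)
    rw [← card_level_zero_sig, ← card_box_sig a b hab, hkcast] at key
    have : (n : ℝ) - 2 + 1 = (n : ℝ) - 1 := by ring
    rw [this] at key
    exact key

end Vale.Agent.H44.CT
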