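import Vale.Agent.H44.CT.LineShift

/-!
P328, Lemma (C): the depth profile of a column pair.  `pD δ` is the number of lines of depth
`δ`, `GD g δ` the sum of `g` over the tables of depth `δ`.  The level sets, the depth classes and
the penalty are expressed through them.
-/

namespace Vale.Agent.H44.CT

open Finset Vale.Agent.H90 Vale.Agent.H14.CT

variable {n : ℕ}

/-- The number of lines of depth `δ` (counted by their points of level `0`). -/
noncomputable def pD (s : Fin n → ℕ) (ρ : ℕ) (a b : Fin n) (δ : ℕ) : ℝ :=
  ((univ.filter (fun z : Box n s ρ => depthB a b z = δ ∧ levelB a b z = 0)).card : ℝ)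

variable {s : Fin n → ℕ} {ρ : ℕ}

/-- The sum of `g` over the tables of depth `δ`. -/
noncomputable def GD (a b : Fin n) (g : Box n s ρ → ℝ) (δ : ℕ) : ℝ :=
  ∑ z ∈ univ.filter (fun z : Box n s ρ => depthB a b z = δ), g z

theorem pD_nonneg (a b : Fin n) (δ : ℕ) : 0 ≤ pD s ρ a b δ := by
  unfold pD
  exact Nat.cast_nonneg _

theorem depthB_le_D (a b : Fin n) (z : Box n s ρ) : depthB a b z ≤ min (s a) (s b) := by
  unfold depthB
  exact min_le_right _ _

/-- The level set `{level = d}` has as many points as there are lines of depth `≥ d`. -/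
theorem card_level_eq (a b : Fin n) (hab : a ≠ b) (d : ℕ) :
    ((univ.filter (fun z : Box n s ρ => levelB a b z = d)).card : ℝ)
      = ∑ δ ∈ Icc d (min (s a) (s b)), pD s ρ a b δ := by
  have h1 := card_level_shift a b hab (fun _ : Box n s ρ => True) (fun _ _ _ => Iff.rfl) d
  have h1' : (univ.filter (fun z : Box n s ρ => levelB a b z = d)).card
      = (univ.filter (fun z : Box n s ρ => levelB a b z = 0 ∧ d ≤ depthB a b z)).card := by
    have e1 : univ.filter (fun z : Box n s ρ => levelB a b z = d)
        = univ.filter (fun z : Box n s ρ => True ∧ levelB a b z = d) := by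
      ext z; simp
    have e2 : univ.filter (fun z : Box n s ρ => levelB a b z = 0 ∧ d ≤ depthB a b z)
        = univ.filter (fun z : Box n s ρ => True ∧ levelB a b z = 0 ∧ d ≤ depthB a b z) := by
      ext z; simp
    rw [e1, e2]
    exact h1
  have h2 : (univ.filter (fun z : Box n s ρ => levelB a b z = 0 ∧ d ≤ depthB a b z)).card
      = ∑ δ ∈ Icc d (min (s a) (s b)),
          (univ.filter (fun z : Box n s ρ => depthB a b z = δ ∧ levelB a b z = 0)).card := by
    rw [Finset.card_eq_sum_card_fiberwise (f := fun z : Box n s ρ => depthB a b z)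
      (t := Icc d (min (s a) (s b)))]
    · refine Finset.sum_congr rfl (fun δ _ => ?_)
      rw [Finset.filter_filter]
      congr 1
      ext z
      simp only [mem_filter, mem_univ, true_and]
      constructor
      · rintro ⟨⟨h0, _⟩, he⟩
        exact ⟨he, h0⟩
      · rintro ⟨he, h0⟩
        have := (mem_Icc.1 ‹δ ∈ Icc d (min (s a) (s b))›).1
        exact ⟨⟨h0, by omega⟩, he⟩
    · intro z hz
      have hz := Finset.mem_coe.1 hz
      simp only [mem_filter, mem_univ, true_and] at hz
      exact Finset.mem_coe.2 (mem_Icc.2 ⟨hz.2, depthB_le_D a b z⟩)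
  rw [h1', h2]
  unfold pD
  push_cast
  rfl

/-- The sum over the tables of depth `≥ d`. -/
theorem sum_depth_ge (a b : Fin n) (g : Box n s ρ → ℝ) (d : ℕ) :
    ∑ z ∈ univ.filter (fun z : Box n s ρ => d ≤ depthB a b z), g z
      = ∑ δ ∈ Icc d (min (s a) (s b)), GD a b g δ := by
  unfold GD
  rw [← Finset.sum_fiberwise_of_maps_to (g := fun z : Box n s ρ => depthB a b z)
    (t := Icc d (min (s a) (s b)))]
  · refine Finset.sum_congr rfl (fun δ hδ => ?_)
    rw [Finset.filter_filter]
    refine Finset.sum_congr ?_ (fun _ _ => rfl)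
    ext z
    simp only [mem_filter, mem_univ, true_and]
    constructor
    · rintro ⟨_, he⟩
      exact he
    · intro he
      have := (mem_Icc.1 hδ).1
      exact ⟨by omega, he⟩
  · intro z hz
    have hz := Finset.mem_coe.1 hz
    simp only [mem_filter, mem_univ, true_and] at hz
    exact Finset.mem_coe.2 (mem_Icc.2 ⟨hz, depthB_le_D a b z⟩)

/-- A depth class has `δ + 1` points on each of its lines. -/
theorem card_depth_eq (a b : Fin n) (hab : a ≠ b) (δ : ℕ) :
    ((univ.filter (fun z : Box n s ρ => depthB a b z = δ)).card : ℝ)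
      = ((δ : ℝ) + 1) * pD s ρ a b δ := by
  have h2 : (univ.filter (fun z : Box n s ρ => depthB a b z = δ)).card
      = ∑ t ∈ range (δ + 1),
          (univ.filter (fun z : Box n s ρ => depthB a b z = δ ∧ levelB a b z = t)).card := by
    rw [Finset.card_eq_sum_card_fiberwise (f := fun z : Box n s ρ => levelB a b z)
      (t := range (δ + 1))]
    · refine Finset.sum_congr rfl (fun t _ => ?_)
      rw [Finset.filter_filter]
    · intro z hz
      have hz := Finset.mem_coe.1 hz
      simp only [mem_filter, mem_univ, true_and] at hz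
      have := levelB_le_depthB a b hab z
      refine Finset.mem_coe.2 ?_
      show levelB a b z ∈ range (δ + 1)
      exact mem_range.2 (by omega)
  have h3 : ∀ t ∈ range (δ + 1),
      (univ.filter (fun z : Box n s ρ => depthB a b z = δ ∧ levelB a b z = t)).card
        = (univ.filter (fun z : Box n s ρ => depthB a b z = δ ∧ levelB a b z = 0)).card := by
    intro t ht
    have ht' : t ≤ δ := by
      have := mem_range.1 ht
      omega
    rw [card_level_shift a b hab (fun z : Box n s ρ => depthB a b z = δ)
      (fun z w h => by rw [depthB_const a b hab z w h]) t]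
    congr 1
    ext z
    simp only [mem_filter, mem_univ, true_and]
    constructor
    · rintro ⟨he, h0, _⟩
      exact ⟨he, h0⟩
    · rintro ⟨he, h0⟩
      exact ⟨he, h0, by omega⟩
  rw [h2, Finset.sum_congr rfl h3, Finset.sum_const, Finset.card_range, smul_eq_mul]
  unfold pD
  push_cast
  ring

/-- The number of lines. -/
theorem card_level_zero (a b : Fin n) (hab : a ≠ b) :
    ((univ.filter (fun z : Box n s ρ => levelB a b z = 0)).card : ℝ)
      = ∑ δ ∈ range (min (s a) (s b) + 1), pD s ρ a b δ := by
  rw [card_level_eq a b hab 0]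
  refine Finset.sum_congr ?_ (fun _ _ => rfl)
  ext δ
  simp only [mem_Icc, mem_range]
  omega

/-- The number of tables. -/
theorem card_box_eq (a b : Fin n) (hab : a ≠ b) :
    (Fintype.card (Box n s ρ) : ℝ)
      = ∑ δ ∈ range (min (s a) (s b) + 1), ((δ : ℝ) + 1) * pD s ρ a b δ := by
  have h : Fintype.card (Box n s ρ)
      = ∑ δ ∈ range (min (s a) (s b) + 1),
          (univ.filter (fun z : Box n s ρ => depthB a b z = δ)).card := by
    rw [← Finset.card_univ]
    rw [Finset.card_eq_sum_card_fiberwise (f := fun z : Box n s ρ => depthB a b z)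
      (t := range (min (s a) (s b) + 1))]
    intro z _
    have := depthB_le_D a b z
    refine Finset.mem_coe.2 ?_
    show depthB a b z ∈ range (min (s a) (s b) + 1)
    exact mem_range.2 (by omega)
  rw [h]
  push_cast
  exact Finset.sum_congr rfl (fun δ _ => card_depth_eq a b hab δ)

/-- The total sum. -/
theorem sum_GD (a b : Fin n) (g : Box n s ρ → ℝ) :
    ∑ δ ∈ range (min (s a) (s b) + 1), GD a b g δ = ∑ z, g z := by
  unfold GD
  rw [Finset.sum_fiberwise_of_maps_to (g := fun z : Box n s ρ => depthB a b z)
    (t := range (min (s a) (s b) + 1))]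
  intro z _
  have := depthB_le_D a b z
  refine Finset.mem_coe.2 ?_
  show depthB a b z ∈ range (min (s a) (s b) + 1)
  exact mem_range.2 (by omega)

theorem GD_eq_zero (a b : Fin n) (hab : a ≠ b) (g : Box n s ρ → ℝ) (δ : ℕ)
    (h : pD s ρ a b δ = 0) : GD a b g δ = 0 := by
  have hc := card_depth_eq (s := s) (ρ := ρ) a b hab δ
  rw [h, mul_zero] at hc
  have hc' : (univ.filter (fun z : Box n s ρ => depthB a b z = δ)).card = 0 := by
    exact_mod_cast hc
  unfold GD
  rw [Finset.card_eq_zero.1 hc', Finset.sum_empty]

/-- The penalty through the depth profile. -/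
theorem penB_eq_profile (a b : Fin n) (hab : a ≠ b) (g : Box n s ρ → ℝ) :
    penB a b g = ∑ d ∈ Icc 1 (min (s a) (s b)),
      (∑ δ ∈ Icc d (min (s a) (s b)), GD a b g δ) ^ 2 /
        ((d : ℝ) * (d + 1) * ∑ δ ∈ Icc d (min (s a) (s b)), pD s ρ a b δ) := by
  unfold penB
  refine Finset.sum_congr rfl (fun d _ => ?_)
  rw [sum_depth_ge a b g d, card_level_eq a b hab d]

end Vale.Agent.H44.CT
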