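import Vale.Agent.H44.CT.LemCML
import Vale.Agent.H44.CT.Hardy1D

/-!
P328, Lemma (C) (helper93, thread #1158): on every box-slice class and for every pair of
columns `a ≠ b`, the closed-form penalty of a centred function is at most `n - 2` times the
squared norm of its conditional expectation given the depth of the line (hence given
`z a + z b`, hence given the line).

Route: the penalty and the right side only depend on the depth profile (`LemCStruct.lean`);
the one-dimensional Hardy inequality with a Doeblin constant (`Hardy1D.lean`); the Doeblin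
constant `1 / (n - 1)` is the mean-length inequality (`LemCML.lean`).
-/

namespace Vale.Agent.H44.CT

open Finset Vale.Agent.H90 Vale.Agent.H14.CT

section abs

variable {Ω : Type*} [Fintype Ω] [DecidableEq Ω]

/-- Tower property: averaging over a coarser relation absorbs averaging over a finer one. -/
theorem avgRel_tower (r1 r2 : Ω → Ω → Prop) [DecidableRel r1] [DecidableRel r2]
    (h1 : Equivalence r1) (h2 : Equivalence r2) (h21 : ∀ x y, r2 x y → r1 x y) (g : Ω → ℝ) :
    avgRel r1 (avgRel r2 g) = avgRel r1 g := by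
  apply eq_of_dot_eq
  intro h
  rw [avgRel_dot h1 h (avgRel r2 g), avgRel_dot h2 (avgRel r1 h) g, avgRel_dot h1 h g,
    avgRel_eq_self h2 (avgRel r1 h) (fun x y hxy => avgRel_of_rel h1 h (h21 x y hxy))]

omit [DecidableEq Ω] in
/-- Averaging is a contraction. -/
theorem avgRel_contract (r : Ω → Ω → Prop) [DecidableRel r] (hr : Equivalence r) (h : Ω → ℝ) :
    dot (avgRel r h) (avgRel r h) ≤ dot h h := by
  have e : dot h (avgRel r h) = dot (avgRel r h) (avgRel r h) := by
    rw [← avgRel_dot hr, avgRel_idem hr]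
  have h0 := dot_self_nonneg (h - avgRel r h)
  rw [dot_sub_left, dot_sub_right, dot_sub_right, dot_comm (avgRel r h) h, e] at h0
  linarith

omit [DecidableEq Ω] in
theorem sum_sq_eq_dot (h : Ω → ℝ) : ∑ x, h x ^ 2 = dot h h := by
  unfold dot
  exact Finset.sum_congr rfl (fun x _ => sq (h x))

/-- The squared norm of the average over a coarser relation is smaller. -/
theorem sum_sq_avgRel_mono (r1 r2 : Ω → Ω → Prop) [DecidableRel r1] [DecidableRel r2]
    (h1 : Equivalence r1) (h2 : Equivalence r2) (h21 : ∀ x y, r2 x y → r1 x y) (g : Ω → ℝ) :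
    ∑ x, avgRel r1 g x ^ 2 ≤ ∑ x, avgRel r2 g x ^ 2 := by
  rw [sum_sq_eq_dot, sum_sq_eq_dot, ← avgRel_tower r1 r2 h1 h2 h21 g]
  exact avgRel_contract r1 h1 (avgRel r2 g)

end abs

variable {n : ℕ} {s : Fin n → ℕ} {ρ : ℕ}

/-- Same value of `z a + z b`. -/
def SigRel (a b : Fin n) (z w : Box n s ρ) : Prop := z.1 a + z.1 b = w.1 a + w.1 b

instance (a b : Fin n) : DecidableRel (SigRel (s := s) (ρ := ρ) a b) := fun z w => by
  unfold SigRel; infer_instance

/-- Same depth of the line in the columns `a, b`. -/
def DepthRel (a b : Fin n) (z w : Box n s ρ) : Prop := depthB a b z = depthB a b w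

instance (a b : Fin n) : DecidableRel (DepthRel (s := s) (ρ := ρ) a b) := fun z w => by
  unfold DepthRel; infer_instance

theorem sigRel_equiv (a b : Fin n) : Equivalence (SigRel (s := s) (ρ := ρ) a b) where
  refl := fun _ => rfl
  symm := fun h => h.symm
  trans := fun h1 h2 => h1.trans h2

theorem depthRel_equiv (a b : Fin n) : Equivalence (DepthRel (s := s) (ρ := ρ) a b) where
  refl := fun _ => rfl
  symm := fun h => h.symm
  trans := fun h1 h2 => h1.trans h2

theorem depthRel_of_sigRel (a b : Fin n) (z w : Box n s ρ) (h : SigRel a b z w) :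
    DepthRel a b z w := by
  unfold DepthRel
  unfold SigRel at h
  rw [depthB_eq_depS a b z, depthB_eq_depS a b w, h]

theorem sigRel_of_lineRel (a b : Fin n) (hab : a ≠ b) (z w : Box n s ρ) (h : LineRel a b z w) :
    SigRel a b z w :=
  lineRel_sum a b hab z w h

theorem sum_centre_zero (f : Box n s ρ → ℝ) : ∑ z, centreB f z = 0 := by
  unfold centreB
  rw [Finset.sum_sub_distrib, Finset.sum_const, Finset.card_univ, nsmul_eq_mul]
  by_cases h0 : (Fintype.card (Box n s ρ) : ℝ) = 0
  · have h1 : Fintype.card (Box n s ρ) = 0 := by exact_mod_cast h0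
    have h2 : IsEmpty (Box n s ρ) := Fintype.card_eq_zero_iff.1 h1
    rw [h0, zero_mul, sub_zero]
    exact Finset.sum_eq_zero (fun z _ => (h2.false z).elim)
  · rw [mul_div_cancel₀ _ h0, sub_self]

theorem avgRel_depth_eq (a b : Fin n) (g : Box n s ρ → ℝ) (z : Box n s ρ) :
    avgRel (DepthRel a b) g z = GD a b g (depthB a b z) /
      ((univ.filter (fun w : Box n s ρ => depthB a b w = depthB a b z)).card : ℝ) := by
  unfold avgRel GD DepthRel
  have e : univ.filter (fun w : Box n s ρ => depthB a b z = depthB a b w)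
      = univ.filter (fun w : Box n s ρ => depthB a b w = depthB a b z) := by
    ext w
    simp only [mem_filter, mem_univ, true_and]
    exact eq_comm
  rw [e]

/-- The squared norm of the conditional expectation given the depth, through the profile. -/
theorem sum_sq_avg_depth (a b : Fin n) (hab : a ≠ b) (g : Box n s ρ → ℝ) :
    ∑ z, (avgRel (DepthRel a b) g z) ^ 2
      = ∑ δ ∈ range (min (s a) (s b) + 1),
          GD a b g δ ^ 2 / (((δ : ℝ) + 1) * pD s ρ a b δ) := by
  have hmaps : ((univ : Finset (Box n s ρ)) : Set (Box n s ρ)).MapsTo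
      (fun z : Box n s ρ => depthB a b z) (range (min (s a) (s b) + 1)) := by
    intro z _
    refine Finset.mem_coe.2 ?_
    show depthB a b z ∈ range (min (s a) (s b) + 1)
    have := depthB_le_D a b z
    exact mem_range.2 (by omega)
  rw [← Finset.sum_fiberwise_of_maps_to hmaps]
  refine Finset.sum_congr rfl (fun δ _ => ?_)
  have h : ∀ z ∈ univ.filter (fun z : Box n s ρ => depthB a b z = δ),
      (avgRel (DepthRel a b) g z) ^ 2
        = (GD a b g δ / ((univ.filter (fun w : Box n s ρ => depthB a b w = δ)).card : ℝ)) ^ 2 := by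
    intro z hz
    simp only [mem_filter, mem_univ, true_and] at hz
    rw [avgRel_depth_eq, hz]
  rw [Finset.sum_congr rfl h, Finset.sum_const, nsmul_eq_mul, card_depth_eq a b hab δ]
  by_cases h0 : ((δ : ℝ) + 1) * pD s ρ a b δ = 0
  · rw [h0]
    simp
  · field_simp

/-- Lemma (C), depth form (the strongest). -/
theorem penB_le_depth (a b : Fin n) (hab : a ≠ b) (f : Box n s ρ → ℝ) :
    penB a b (centreB f)
      ≤ ((n : ℝ) - 2) * ∑ z, (avgRel (DepthRel a b) (centreB f) z) ^ 2 := by
  have hn2 := two_le_of_ne a b hab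
  have hn2' : (2 : ℝ) ≤ (n : ℝ) := by exact_mod_cast hn2
  have hθ0 : (0 : ℝ) < 1 / ((n : ℝ) - 1) := div_pos one_pos (by linarith)
  have hθ1 : 1 / ((n : ℝ) - 1) ≤ 1 := by
    rw [div_le_one (by linarith)]
    linarith
  have H := hardy_doeblin (min (s a) (s b)) (pD s ρ a b) (GD a b (centreB f))
    (1 / ((n : ℝ) - 1)) (pD_nonneg a b) (fun δ h => GD_eq_zero a b hab (centreB f) δ h)
    (by rw [sum_GD]; exact sum_centre_zero f) hθ0 hθ1 (by
      intro δ _ hpos
      have hne : (univ.filter
          (fun z : Box n s ρ => depthB a b z = δ ∧ levelB a b z = 0)).Nonempty := by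
        rw [← Finset.card_pos]
        unfold pD at hpos
        exact_mod_cast hpos
      obtain ⟨z₀, hz₀⟩ := hne
      simp only [mem_filter, mem_univ, true_and] at hz₀
      have hml := ml_class a b hab z₀
      rw [hz₀.1, card_level_zero a b hab, card_box_eq a b hab] at hml
      rw [div_mul_eq_mul_div, div_mul_eq_mul_div, div_le_iff₀ (by linarith)]
      linarith)
  rw [penB_eq_profile a b hab (centreB f), sum_sq_avg_depth a b hab (centreB f)]
  have hc : (1 - 1 / ((n : ℝ) - 1)) / (1 / ((n : ℝ) - 1)) = (n : ℝ) - 2 := by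
    have : (n : ℝ) - 1 ≠ 0 := by linarith
    field_simp
    ring
  rw [hc] at H
  exact H

/-- Lemma (C): the penalty is at most `n - 2` times `|E[f | z a + z b] - E f|^2`. -/
theorem penB_le_sigma (a b : Fin n) (hab : a ≠ b) (f : Box n s ρ → ℝ) :
    penB a b (centreB f)
      ≤ ((n : ℝ) - 2) * ∑ z, (avgRel (SigRel a b) (centreB f) z) ^ 2 := by
  have hn2 := two_le_of_ne a b hab
  have hn2' : (2 : ℝ) ≤ (n : ℝ) := by exact_mod_cast hn2
  refine le_trans (penB_le_depth a b hab f) ?_
  refine mul_le_mul_of_nonneg_left ?_ (by linarith)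
  exact sum_sq_avgRel_mono (DepthRel a b) (SigRel a b) (depthRel_equiv a b) (sigRel_equiv a b)
    (fun z w h => depthRel_of_sigRel a b z w h) (centreB f)

/-- Lemma (C), line form: the penalty is at most `n - 2` times `|S_q f - E f|^2`. -/
theorem penB_le_line (a b : Fin n) (hab : a ≠ b) (f : Box n s ρ → ℝ) :
    penB a b (centreB f)
      ≤ ((n : ℝ) - 2) * ∑ z, (avgRel (LineRel a b) (centreB f) z) ^ 2 := by
  have hn2 := two_le_of_ne a b hab
  have hn2' : (2 : ℝ) ≤ (n : ℝ) := by exact_mod_cast hn2
  refine le_trans (penB_le_sigma a b hab f) ?_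
  refine mul_le_mul_of_nonneg_left ?_ (by linarith)
  exact sum_sq_avgRel_mono (SigRel a b) (LineRel a b) (sigRel_equiv a b) (lineRel_equiv a b)
    (fun z w h => sigRel_of_lineRel a b hab z w h) (centreB f)

end Vale.Agent.H44.CT
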