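import Vale.Agent.H91.CT.BoxStruct14
import Vale.Agent.H14.CT.BoxPool

/-!
P328, Lemma (C): the level is a bijection from a line of depth `D` onto `{0, …, D}`; hence for
a set `A` of tables that is a union of lines, the tables of `A` of level `t` are as many as the
tables of `A` of level `0` on lines of depth at least `t`.

Proof sketch.  `exists_on_line`: as `exists_levelB` in `Vale/Agent/H14/CT/BoxPool.lean` (the
point `lineFun a b z.1 ((z a + z b - min (z a + z b) (s b)) + t)`), which is on the line of `z`
by `lineFun_other`.  `eq_of_line_level`: same line gives the same `z a + z b` (`lineRel_sum`);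
with the same level, `z a = w a` by `omega` (use `z.2.1 a`, `z.2.1 b`), then `eq_of_lineRel`.
`card_level_shift`: `Finset.card_nbij'` (or two injections) with the maps
`z ↦ the point of level 0 on the line of z` and `w ↦ the point of level t on the line of w`
(`Classical.choose` of `exists_on_line`; note `levelB_le_depthB` and `depthB_const`).
-/

namespace Vale.Agent.H44.CT

open Finset Vale.Agent.H90 Vale.Agent.H14.CT

variable {n : ℕ} {s : Fin n → ℕ} {ρ : ℕ}

/-- On a line of depth at least `t` there is a point of level `t`. -/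
theorem exists_on_line (a b : Fin n) (hab : a ≠ b) (z : Box n s ρ) (t : ℕ)
    (ht : t ≤ depthB a b z) : ∃ w : Box n s ρ, LineRel a b z w ∧ levelB a b w = t := by
  have hza := z.2.1 a
  have hzb := z.2.1 b
  unfold depthB at ht
  have ht' : (z.1 a + z.1 b - min (z.1 a + z.1 b) (s b)) + t ≤ z.1 a + z.1 b := by omega
  have hbox : ∀ k, lineFun a b z.1 ((z.1 a + z.1 b - min (z.1 a + z.1 b) (s b)) + t) k ≤ s k := by
    intro k
    by_cases hka : k = a
    · rw [hka, lineFun_a]
      omega
    · by_cases hkb : k = b
      · rw [hkb, lineFun_b a b hab]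
        omega
      · rw [lineFun_other a b z.1 _ k hka hkb]
        exact z.2.1 k
  have hsum : ∑ k, lineFun a b z.1 ((z.1 a + z.1 b - min (z.1 a + z.1 b) (s b)) + t) k = ρ := by
    rw [lineFun_sum a b hab z.1 _ ht']
    exact z.2.2
  refine ⟨⟨lineFun a b z.1 ((z.1 a + z.1 b - min (z.1 a + z.1 b) (s b)) + t), hbox, hsum⟩,
    fun k hka hkb => (lineFun_other a b z.1 _ k hka hkb).symm, ?_⟩
  unfold levelB
  show min (lineFun a b z.1 ((z.1 a + z.1 b - min (z.1 a + z.1 b) (s b)) + t) a)
    (s b - lineFun a b z.1 ((z.1 a + z.1 b - min (z.1 a + z.1 b) (s b)) + t) b) = t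
  rw [lineFun_a, lineFun_b a b hab]
  omega

/-- Two points of a line with the same level are equal. -/
theorem eq_of_line_level (a b : Fin n) (hab : a ≠ b) (z w : Box n s ρ) (h : LineRel a b z w)
    (hl : levelB a b z = levelB a b w) : z = w := by
  have hs := lineRel_sum a b hab z w h
  have hza := z.2.1 a
  have hzb := z.2.1 b
  have hwa := w.2.1 a
  have hwb := w.2.1 b
  unfold levelB at hl
  have ha : z.1 a = w.1 a := by omega
  exact eq_of_lineRel a b hab z w h ha

/-- The point of level `0` on the line of `z`. -/
noncomputable def r4_down (a b : Fin n) (hab : a ≠ b) (z : Box n s ρ) : Box n s ρ :=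
  Classical.choose (exists_on_line a b hab z 0 (Nat.zero_le _))

theorem r4_down_line (a b : Fin n) (hab : a ≠ b) (z : Box n s ρ) :
    LineRel a b z (r4_down a b hab z) :=
  (Classical.choose_spec (exists_on_line a b hab z 0 (Nat.zero_le _))).1

theorem r4_down_level (a b : Fin n) (hab : a ≠ b) (z : Box n s ρ) :
    levelB a b (r4_down a b hab z) = 0 :=
  (Classical.choose_spec (exists_on_line a b hab z 0 (Nat.zero_le _))).2

/-- The point of level `t` on the line of `w` if the line is deep enough, else `w`. -/
noncomputable def r4_up (a b : Fin n) (hab : a ≠ b) (t : ℕ) (w : Box n s ρ) : Box n s ρ :=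
  if h : t ≤ depthB a b w then Classical.choose (exists_on_line a b hab w t h) else w

theorem r4_up_line (a b : Fin n) (hab : a ≠ b) (t : ℕ) (w : Box n s ρ)
    (h : t ≤ depthB a b w) : LineRel a b w (r4_up a b hab t w) := by
  unfold r4_up
  rw [dif_pos h]
  exact (Classical.choose_spec (exists_on_line a b hab w t h)).1

theorem r4_up_level (a b : Fin n) (hab : a ≠ b) (t : ℕ) (w : Box n s ρ)
    (h : t ≤ depthB a b w) : levelB a b (r4_up a b hab t w) = t := by
  unfold r4_up
  rw [dif_pos h]
  exact (Classical.choose_spec (exists_on_line a b hab w t h)).2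

/-- For a union of lines `A`: the tables of `A` of level `t` are as many as the tables of `A` of
level `0` on lines of depth at least `t`. -/
theorem card_level_shift (a b : Fin n) (hab : a ≠ b) (A : Box n s ρ → Prop) [DecidablePred A]
    (hA : ∀ z w, LineRel a b z w → (A z ↔ A w)) (t : ℕ) :
    (univ.filter (fun z : Box n s ρ => A z ∧ levelB a b z = t)).card
      = (univ.filter (fun z : Box n s ρ => A z ∧ levelB a b z = 0 ∧ t ≤ depthB a b z)).card := by
  refine Finset.card_nbij' (r4_down a b hab) (r4_up a b hab t) ?_ ?_ ?_ ?_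
  · intro z hz
    have hz' := (Finset.mem_filter.1 (Finset.mem_coe.1 hz)).2
    refine Finset.mem_coe.2 (Finset.mem_filter.2 ⟨Finset.mem_univ _, ?_, ?_, ?_⟩)
    · exact (hA z _ (r4_down_line a b hab z)).1 hz'.1
    · exact r4_down_level a b hab z
    · rw [← depthB_const a b hab z _ (r4_down_line a b hab z), ← hz'.2]
      exact levelB_le_depthB a b hab z
  · intro w hw
    have hw' := (Finset.mem_filter.1 (Finset.mem_coe.1 hw)).2
    refine Finset.mem_coe.2 (Finset.mem_filter.2 ⟨Finset.mem_univ _, ?_, ?_⟩)
    · exact (hA w _ (r4_up_line a b hab t w hw'.2.2)).1 hw'.1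
    · exact r4_up_level a b hab t w hw'.2.2
  · intro z hz
    have hz' := (Finset.mem_filter.1 (Finset.mem_coe.1 hz)).2
    have h1 := r4_down_line a b hab z
    have hd : t ≤ depthB a b (r4_down a b hab z) := by
      rw [← depthB_const a b hab z _ h1, ← hz'.2]
      exact levelB_le_depthB a b hab z
    have h2 := r4_up_line a b hab t (r4_down a b hab z) hd
    have h3 := r4_up_level a b hab t (r4_down a b hab z) hd
    refine (eq_of_line_level a b hab z _ ((lineRel_equiv a b).trans h1 h2) ?_).symm
    rw [h3, hz'.2]
  · intro w hw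
    have hw' := (Finset.mem_filter.1 (Finset.mem_coe.1 hw)).2
    have h1 := r4_up_line a b hab t w hw'.2.2
    have h2 := r4_down_line a b hab (r4_up a b hab t w)
    have h3 := r4_down_level a b hab (r4_up a b hab t w)
    refine (eq_of_line_level a b hab w _ ((lineRel_equiv a b).trans h1 h2) ?_).symm
    rw [h3, hw'.2.1]

end Vale.Agent.H44.CT
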