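import Vale.Agent.H44.CT.LemmaC
import Vale.Agent.H91.CT.BoxGS

/-!
P328, route T2: Lemma (C) in the form `PenHyp` of `Vale/Agent/H91/CT/BoxGS.lean`, and the cut
route with Lemma (C) discharged: the cut inequality `CutHyp c` alone gives the Poincare
inequality and the mixing time bound of the `2 x 2` heat-bath chain on contingency tables.
-/

namespace Vale.Agent.H44.CT

open Finset Vale.Agent.H90 Vale.Agent.H88.CT Vale.Agent.H14.CT Vale.Agent.H91.GS

/-- Lemma (C) as `PenHyp` with the constant `n - 2` (natural subtraction, so that the constant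
is nonnegative for every `n`). -/
theorem penHyp_natSub : PenHyp (fun n => ((n - 2 : ℕ) : ℝ)) := by
  intro n s ρ a b hab f hf
  have hn2 := two_le_of_ne a b hab
  have hc : centreB f = f := by
    funext z
    unfold centreB
    rw [hf, zero_div, sub_zero]
  have h := penB_le_sigma a b hab f
  rw [hc] at h
  have e : avgRel (PairSumRel a b) f = avgRel (SigRel a b) f :=
    avgRel_congr _ _ (fun _ _ => Iff.rfl) f
  have hk : ((n - 2 : ℕ) : ℝ) = (n : ℝ) - 2 := by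
    rw [Nat.cast_sub hn2]
    norm_num
  rw [e]
  show penB a b f ≤ ((n - 2 : ℕ) : ℝ) * ∑ z, avgRel (SigRel a b) f z ^ 2
  rw [hk]
  exact h

/-- Lemma (C) as `PenHyp` with the constant `n - 2`. -/
theorem penHyp_sub : PenHyp (fun n => (n : ℝ) - 2) := by
  intro n s ρ a b hab f hf
  have hn2 := two_le_of_ne a b hab
  have h : penB a b f ≤ ((n - 2 : ℕ) : ℝ) * ∑ z, avgRel (PairSumRel a b) f z ^ 2 :=
    penHyp_natSub n s ρ a b hab f hf
  have hk : ((n - 2 : ℕ) : ℝ) = (n : ℝ) - 2 := by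
    rw [Nat.cast_sub hn2]
    norm_num
  rw [hk] at h
  exact h

/-- Route T2 with Lemma (C) discharged: if the cut inequality `CutHyp c` holds with positive
constants `c k`, then for all `m, n ≥ 2` and all margins the `2 x 2` heat-bath chain satisfies
the Poincare inequality with constant `δ / (m (m - 1) n (n - 1))` for every `0 < δ ≤ 2` with
`δ ≤ 2 c k / (c k + 2 (k - 2)^2)`, `k = m, n`, and the corresponding mixing time bound. -/
theorem main_cut_only (c : ℕ → ℝ) (hc : ∀ k, 0 < c k) (h1 : CutHyp c) {m n : ℕ}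
    (hm : 2 ≤ m) (hn : 2 ≤ n) (r : Fin m → ℕ) (cc : Fin n → ℕ) (δ : ℝ) (hδ0 : 0 < δ)
    (hδ2 : δ ≤ 2)
    (hδm : δ ≤ 2 * c m / (c m + 2 * ((m : ℝ) - 2) * ((m : ℝ) - 2)))
    (hδn : δ ≤ 2 * c n / (c n + 2 * ((n : ℝ) - 2) * ((n : ℝ) - 2))) :
    (∀ f : Omega r cc → ℝ, ∑ X, f X = 0 →
      δ / ((m : ℝ) * (m - 1) * ((n : ℝ) * (n - 1))) * ∑ X, f X ^ 2
        ≤ (1 / 2 : ℝ) * ∑ X, ∑ Y, blockChain r cc X Y * (f X - f Y) ^ 2) ∧
    ∀ (η : ℝ), 0 < η → ∀ t : ℕ,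
      2 * ((m : ℝ) * (m - 1) * ((n : ℝ) * (n - 1))) / δ
        * ((m : ℝ) * ∑ j, Real.log ((cc j : ℝ) + 1) + 2 * Real.log (1 / η)) ≤ t →
      ∀ X : Omega r cc,
        (1 / 2 : ℝ) * ∑ Y, |(((1 / 2 : ℝ) • (1 + blockChain r cc)) ^ t) X Y
          - 1 / (Fintype.card (Omega r cc) : ℝ)| ≤ η := by
  have hkm : ((m - 2 : ℕ) : ℝ) = (m : ℝ) - 2 := by
    rw [Nat.cast_sub hm]
    norm_num
  have hkn : ((n - 2 : ℕ) : ℝ) = (n : ℝ) - 2 := by
    rw [Nat.cast_sub hn]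
    norm_num
  refine main_cut c (fun n => ((n - 2 : ℕ) : ℝ)) hc (fun k => Nat.cast_nonneg _) h1
    penHyp_natSub hm hn r cc δ hδ0 hδ2 ?_ ?_
  · show δ ≤ 2 * c m / (c m + 2 * ((m : ℝ) - 2) * ((m - 2 : ℕ) : ℝ))
    rw [hkm]
    exact hδm
  · show δ ≤ 2 * c n / (c n + 2 * ((n : ℝ) - 2) * ((n - 2 : ℕ) : ℝ))
    rw [hkn]
    exact hδn

end Vale.Agent.H44.CT
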